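import Mathlib

/-!
# R108 (S0142): definitions.  FROZEN.  See blueprint note (rid 108).
-/

set_option autoImplicit false

open Filter Topology Set

namespace Crest.Agent.R108

universe u

/-- reflexive -/
def Refl (X : Type u) [NormedAddCommGroup X] [NormedSpace ℝ X] : Prop :=
  Function.Surjective (NormedSpace.inclusionInDoubleDual ℝ X)

/-- weak sequential convergence -/
def WTendsto {X : Type u} [NormedAddCommGroup X] [NormedSpace ℝ X] (f : ℕ → X) (p : X) : Prop :=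
  ∀ φ : X →L[ℝ] ℝ, Tendsto (fun n => φ (f n)) atTop (𝓝 (φ p))

/-- A minimal system: `K` closed convex of diameter exactly one, `T` nonexpansive self-map of `K`,
`K` minimal invariant, and `K - K` spans a dense subspace. -/
structure MinSys (Y : Type u) [NormedAddCommGroup Y] [NormedSpace ℝ Y] where
  K : Set Y
  T : Y → Y
  nonempty : K.Nonempty
  closed : IsClosed K
  convex : Convex ℝ K
  diam_le : ∀ x ∈ K, ∀ y ∈ K, ‖x - y‖ ≤ 1
  diam_ge : ∀ c : ℝ, c < 1 → ∃ x ∈ K, ∃ y ∈ K, c < ‖x - y‖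
  mapsTo : MapsTo T K K
  nonexp : ∀ x ∈ K, ∀ y ∈ K, ‖T x - T y‖ ≤ ‖x - y‖
  minimal : ∀ L : Set Y, L ⊆ K → L.Nonempty → IsClosed L → Convex ℝ L → MapsTo T L L → L = K
  dense_span : (Submodule.span ℝ {v : Y | ∃ x ∈ K, ∃ y ∈ K, v = x - y}).topologicalClosure = ⊤


/-- The data extracted from a minimal system. `f n = R n p`. -/
structure Data (Y : Type u) [NormedAddCommGroup Y] [NormedSpace ℝ Y] where
  K : Set Y
  closed : IsClosed K
  convex : Convex ℝ K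
  diam_le : ∀ x ∈ K, ∀ y ∈ K, ‖x - y‖ ≤ 1
  p : Y
  hp : p ∈ K
  d : ℕ → Y
  hd : ∀ k, d k ∈ K
  hdense : K ⊆ closure (Set.range d)
  dense_span : (Submodule.span ℝ {v : Y | ∃ x ∈ K, ∃ y ∈ K, v = x - y}).topologicalClosure = ⊤
  R : ℕ → Y → Y
  mapsTo : ∀ m, MapsTo (R m) K K
  nonexp : ∀ m, ∀ x ∈ K, ∀ y ∈ K, ‖R m x - R m y‖ ≤ ‖x - y‖
  weak : WTendsto (fun n => R n p) p
  fix : ∀ m, Tendsto (fun n => ‖R m (R n p) - R n p‖) atTop (𝓝 0)
  far : ∀ q ∈ K, ∀ ε : ℝ, 0 < ε → ∀ n₀ : ℕ, ∃ n, n₀ ≤ n ∧ 1 - ε < ‖R n p - q‖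

namespace Data

variable {Y : Type u} [NormedAddCommGroup Y] [NormedSpace ℝ Y]

/-- the deep points -/
def f (D : Data Y) (n : ℕ) : Y := D.R n D.p

/-- the "generic" centre -/
noncomputable def qb (D : Data Y) : Y := ∑' k : ℕ, ((1 / 2 : ℝ) ^ (k + 1)) • D.d k

end Data

/-- Norming functionals for `f n - qb`. -/
def Norming {Y : Type u} [NormedAddCommGroup Y] [NormedSpace ℝ Y] (D : Data Y)
    (g : ℕ → (Y →L[ℝ] ℝ)) : Prop :=
  ∀ n, ‖g n‖ ≤ 1 ∧ g n (D.f n - D.qb) = ‖D.f n - D.qb‖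

/-- The class `A` of linear contractions that see the deep directions with constant one. -/
def InA {Y : Type u} [NormedAddCommGroup Y] [NormedSpace ℝ Y] (D : Data Y)
    (g : ℕ → (Y →L[ℝ] ℝ)) (A : Y →L[ℝ] Y) : Prop :=
  ‖A‖ ≤ 1 ∧ ∀ η : ℝ, 0 < η → ∀ n₀ : ℕ, ∃ n, n₀ ≤ n ∧ 1 - η < g n (A (D.f n - D.qb))

/-- The box of base points, with the `k`-th coordinate zero (finitely supported coefficients). -/
def Box {Y : Type u} [NormedAddCommGroup Y] [NormedSpace ℝ Y] (p : Y) (x : ℕ → Y) (ε : ℕ → ℝ)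
    (k : ℕ) : Set Y :=
  {h | ∃ (n : ℕ) (a : ℕ → ℝ), (∀ j, 0 ≤ a j) ∧ (∀ j, a j ≤ ε j) ∧ a k = 0 ∧
    h = p + ∑ j ∈ Finset.range n, a j • (x j - p)}

/-- difference quotients of `z` in direction `x k - p` at scale `ε k` over the box -/
def Quot {Y : Type u} [NormedAddCommGroup Y] [NormedSpace ℝ Y] (z : Y → Y) (p : Y) (x : ℕ → Y)
    (ε : ℕ → ℝ) (k : ℕ) : Set Y :=
  {w | ∃ h ∈ Box p x ε k, w = (ε k)⁻¹ • (z (h + ε k • (x k - p)) - z h)}

end Crest.Agent.R108
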