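import Mathlib
import Crest.Agent.R108.Defs

-- ▼ part R108/Coll
section

set_option autoImplicit false
open Set Filter Topology

namespace Crest.Agent.R108.Coll

set_option linter.unusedSectionVars false

variable {X : Type*} [NormedAddCommGroup X] [NormedSpace ℝ X]

/-- Nonexpansive self-map of `K`. -/
structure NE (K : Set X) (R : X → X) : Prop where
  maps : MapsTo R K K
  le : ∀ a ∈ K, ∀ b ∈ K, ‖R a - R b‖ ≤ ‖a - b‖

/-- The class `G` of the blueprint. -/
structure InG (K : Set X) (T R : X → X) : Prop where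
  ne : NE K R
  bd : ∃ C : ℝ, 0 ≤ C ∧ ∀ x ∈ K, ‖R x - x‖ ≤ C * ‖T x - x‖

/-- `K` is a minimal nonempty closed convex bounded `T`-invariant set. -/
structure MinInv (K : Set X) (T : X → X) : Prop where
  nonempty : K.Nonempty
  closed : IsClosed K
  convex : Convex ℝ K
  bdd : Bornology.IsBounded K
  ne : NE K T
  min : ∀ L ⊆ K, L.Nonempty → IsClosed L → Convex ℝ L → MapsTo T L L → L = K

section G
variable {K : Set X} {T : X → X}

lemma InG.id : InG K T (fun x => x) :=
  ⟨⟨fun _ h => h, fun _ _ _ _ => le_rfl⟩, 0, le_rfl, fun x _ => by simp⟩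

lemma InG.self (hT : NE K T) : InG K T T :=
  ⟨hT, 1, zero_le_one, fun x _ => by simp⟩

lemma InG.comp {R S : X → X} (hR : InG K T R) (hS : InG K T S) (hT : NE K T) :
    InG K T (fun x => R (S x)) := by
  obtain ⟨C1, hC1, h1⟩ := hR.bd
  obtain ⟨C2, hC2, h2⟩ := hS.bd
  refine ⟨⟨fun x hx => hR.ne.maps (hS.ne.maps hx), fun a ha b hb =>
    (hR.ne.le _ (hS.ne.maps ha) _ (hS.ne.maps hb)).trans (hS.ne.le a ha b hb)⟩,
    C1 * (2 * C2 + 1) + C2, by positivity, fun x hx => ?_⟩
  have hSx := hS.ne.maps hx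
  have e1 : ‖R (S x) - S x‖ ≤ C1 * ‖T (S x) - S x‖ := h1 _ hSx
  have e2 : ‖S x - x‖ ≤ C2 * ‖T x - x‖ := h2 x hx
  have e3 : ‖T (S x) - T x‖ ≤ ‖S x - x‖ := hT.le _ hSx _ hx
  have e4 : ‖T (S x) - S x‖ ≤ ‖T (S x) - T x‖ + ‖T x - x‖ + ‖S x - x‖ := by
    have : T (S x) - S x = (T (S x) - T x) + (T x - x) - (S x - x) := by abel
    rw [this]
    exact (norm_sub_le _ _).trans (add_le_add (norm_add_le _ _) le_rfl)
  have e5 : ‖T (S x) - S x‖ ≤ (2 * C2 + 1) * ‖T x - x‖ := by linarith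
  have e6 : ‖R (S x) - x‖ ≤ ‖R (S x) - S x‖ + ‖S x - x‖ := by
    have : R (S x) - x = (R (S x) - S x) + (S x - x) := by abel
    rw [this]; exact norm_add_le _ _
  have e7 : C1 * ‖T (S x) - S x‖ ≤ C1 * ((2 * C2 + 1) * ‖T x - x‖) :=
    mul_le_mul_of_nonneg_left e5 hC1
  calc ‖R (S x) - x‖ ≤ ‖R (S x) - S x‖ + ‖S x - x‖ := e6
    _ ≤ C1 * ((2 * C2 + 1) * ‖T x - x‖) + C2 * ‖T x - x‖ := by linarith
    _ = (C1 * (2 * C2 + 1) + C2) * ‖T x - x‖ := by ring

lemma InG.combo {R S : X → X} (hR : InG K T R) (hS : InG K T S) (hK : Convex ℝ K)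
    {a b : ℝ} (ha : 0 ≤ a) (hb : 0 ≤ b) (hab : a + b = 1) :
    InG K T (fun x => a • R x + b • S x) := by
  obtain ⟨C1, hC1, h1⟩ := hR.bd
  obtain ⟨C2, hC2, h2⟩ := hS.bd
  have key : ∀ u v u' v' : X, ‖(a • u + b • v) - (a • u' + b • v')‖ ≤ a * ‖u - u'‖ + b * ‖v - v'‖ := by
    intro u v u' v'
    have : (a • u + b • v) - (a • u' + b • v') = a • (u - u') + b • (v - v') := by
      simp only [smul_sub]; abel
    rw [this]
    refine (norm_add_le _ _).trans ?_
    rw [norm_smul, norm_smul, Real.norm_of_nonneg ha, Real.norm_of_nonneg hb]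
  refine ⟨⟨fun x hx => hK (hR.ne.maps hx) (hS.ne.maps hx) ha hb hab, fun x hx y hy => ?_⟩,
    a * C1 + b * C2, by positivity, fun x hx => ?_⟩
  · refine (key _ _ _ _).trans ?_
    have i1 := mul_le_mul_of_nonneg_left (hR.ne.le x hx y hy) ha
    have i2 := mul_le_mul_of_nonneg_left (hS.ne.le x hx y hy) hb
    calc a * ‖R x - R y‖ + b * ‖S x - S y‖ ≤ a * ‖x - y‖ + b * ‖x - y‖ := by linarith
      _ = ‖x - y‖ := by rw [← add_mul, hab, one_mul]
  · have hx' : x = a • x + b • x := by rw [← add_smul, hab, one_smul]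
    have : ‖a • R x + b • S x - x‖ = ‖(a • R x + b • S x) - (a • x + b • x)‖ := by
      rw [← hx']
    rw [this]
    refine (key _ _ _ _).trans ?_
    have i1 := mul_le_mul_of_nonneg_left (h1 x hx) ha
    have i2 := mul_le_mul_of_nonneg_left (h2 x hx) hb
    calc a * ‖R x - x‖ + b * ‖S x - x‖ ≤ a * (C1 * ‖T x - x‖) + b * (C2 * ‖T x - x‖) := by linarith
      _ = _ := by ring

/-- Resolvents. -/
lemma exists_resolvent [CompleteSpace X] (hcl : IsClosed K) (hcv : Convex ℝ K)
    (hT : NE K T) {l : ℝ} (hl : 0 < l) (hl1 : l ≤ 1) :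
    ∃ z : X → X, InG K T z ∧ ∀ y ∈ K, ‖T (z y) - z y‖ = l * ‖T (z y) - y‖ := by
  have hex : ∀ y ∈ K, ∃ x ∈ K, l • y + (1 - l) • T x = x := by
    intro y hy
    set f : X → X := fun x => l • y + (1 - l) • T x with hf
    have hfK : MapsTo f K K := fun x hx =>
      hcv hy (hT.maps hx) hl.le (by linarith) (by ring)
    have h1l : (0:ℝ) ≤ 1 - l := by linarith
    have hc : ContractingWith (Real.toNNReal (1 - l)) (hfK.restrict f K K) := by
      refine ⟨?_, ?_⟩
      · rw [← NNReal.coe_lt_coe, Real.coe_toNNReal _ h1l]; simpa using hl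
      · refine LipschitzWith.of_dist_le_mul ?_
        rintro ⟨a, ha⟩ ⟨b, hb⟩
        simp only [Subtype.dist_eq, MapsTo.val_restrict_apply, Real.coe_toNNReal _ h1l]
        rw [dist_eq_norm, dist_eq_norm]
        have : f a - f b = (1 - l) • (T a - T b) := by
          simp only [hf, smul_sub]; abel
        rw [this, norm_smul, Real.norm_of_nonneg h1l]
        exact mul_le_mul_of_nonneg_left (hT.le a ha b hb) h1l
    obtain ⟨x, hx, hfx, -⟩ := ContractingWith.exists_fixedPoint' hcl.isComplete hfK hc hy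
      (edist_ne_top _ _)
    exact ⟨x, hx, hfx⟩
  choose! z hzK hz using hex
  have hne : NE K z := by
    refine ⟨fun y hy => hzK y hy, fun a ha b hb => ?_⟩
    have e : z a - z b = l • (a - b) + (1 - l) • (T (z a) - T (z b)) := by
      conv_lhs => rw [← hz a ha, ← hz b hb]
      simp only [smul_sub]; abel
    have i1 : ‖z a - z b‖ ≤ l * ‖a - b‖ + (1 - l) * ‖T (z a) - T (z b)‖ := by
      conv_lhs => rw [e]
      refine (norm_add_le _ _).trans ?_
      rw [norm_smul, norm_smul, Real.norm_of_nonneg hl.le, Real.norm_of_nonneg (by linarith)]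
    have i2 : (1 - l) * ‖T (z a) - T (z b)‖ ≤ (1 - l) * ‖z a - z b‖ :=
      mul_le_mul_of_nonneg_left (hT.le _ (hzK a ha) _ (hzK b hb)) (by linarith)
    have i3 : l * ‖z a - z b‖ ≤ l * ‖a - b‖ := by linarith
    exact le_of_mul_le_mul_left i3 hl
  refine ⟨z, ⟨hne, (1 - l) / l, div_nonneg (by linarith) hl.le, fun y hy => ?_⟩, fun y hy => ?_⟩
  · have e : z y - y = (1 - l) • (T (z y) - y) := by
      conv_lhs => rw [← hz y hy]
      simp only [smul_sub, sub_smul, one_smul]; abel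
    have i1 : ‖z y - y‖ = (1 - l) * ‖T (z y) - y‖ := by
      rw [e, norm_smul, Real.norm_of_nonneg (by linarith)]
    have i2 : ‖T (z y) - y‖ ≤ ‖T (z y) - T y‖ + ‖T y - y‖ := by
      have : T (z y) - y = (T (z y) - T y) + (T y - y) := by abel
      rw [this]; exact norm_add_le _ _
    have i3 : ‖T (z y) - T y‖ ≤ ‖z y - y‖ := hT.le _ (hzK y hy) _ hy
    have i4 : (1 - l) * ‖T (z y) - y‖ ≤ (1 - l) * (‖z y - y‖ + ‖T y - y‖) :=
      mul_le_mul_of_nonneg_left (by linarith) (by linarith)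
    have i5 : l * ‖z y - y‖ ≤ (1 - l) * ‖T y - y‖ := by nlinarith
    rw [div_mul_eq_mul_div, le_div_iff₀ hl]
    linarith
  · have e : T (z y) - z y = l • (T (z y) - y) := by
      have h0 := hz y hy
      have h1 : T (z y) - z y = T (z y) - (l • y + (1 - l) • T (z y)) := by rw [h0]
      rw [h1]
      simp only [smul_sub, sub_smul, one_smul]; abel
    rw [e, norm_smul, Real.norm_of_nonneg hl.le]

end G

section coll
variable {K : Set X} {T : X → X}


lemma exists_dist_le (hK : Bornology.IsBounded K) : ∀ x ∈ K, ∀ y ∈ K, ‖x - y‖ ≤ Metric.diam K := by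
  intro x hx y hy
  rw [← dist_eq_norm]; exact Metric.dist_le_diam_of_mem hK hx hy

lemma MinInv.closure_orbit (h : MinInv K T) {x : X} (hx : x ∈ K) :
    closure {w | ∃ R, InG K T R ∧ R x = w} = K := by
  set A : Set X := {w | ∃ R, InG K T R ∧ R x = w} with hA
  have hAK : A ⊆ K := by
    rintro w ⟨R, hR, rfl⟩; exact hR.ne.maps hx
  refine h.min _ (closure_minimal hAK h.closed) ⟨x, subset_closure ⟨_, InG.id, rfl⟩⟩ isClosed_closure
    (Convex.closure ?_) ?_
  · rintro _ ⟨R, hR, rfl⟩ _ ⟨S, hS, rfl⟩ a b ha hb hab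
    exact ⟨_, hR.combo hS h.convex ha hb hab, rfl⟩
  · intro w hw
    have hwK : w ∈ K := closure_minimal hAK h.closed hw
    rw [Metric.mem_closure_iff] at hw ⊢
    intro e he
    obtain ⟨a, ha, hd⟩ := hw e he
    obtain ⟨R, hR, rfl⟩ := ha
    refine ⟨T (R x), ⟨_, (InG.self h.ne).comp hR h.ne, rfl⟩, ?_⟩
    rw [dist_eq_norm] at hd ⊢
    exact (h.ne.le _ hwK _ (hR.ne.maps hx)).trans_lt hd

/-- Step 1: collapse of a pair. -/
lemma MinInv.collapse (h : MinInv K T) {x y : X} (hx : x ∈ K) (hy : y ∈ K) {e : ℝ} (he : 0 < e) :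
    ∃ R, InG K T R ∧ ‖R x - R y‖ < e := by
  by_contra hcon
  push Not at hcon
  set D : Set X := {d | ∃ R, InG K T R ∧ R x - R y = d} with hD
  have hDc : Convex ℝ D := by
    rintro _ ⟨R, hR, rfl⟩ _ ⟨S, hS, rfl⟩ a b ha hb hab
    refine ⟨_, hR.combo hS h.convex ha hb hab, ?_⟩
    simp only [smul_sub]; abel
  have hdisj : Disjoint (Metric.ball (0:X) e) D := by
    rw [Set.disjoint_left]
    rintro d hd ⟨R, hR, rfl⟩
    rw [mem_ball_zero_iff] at hd
    exact absurd hd (not_lt.mpr (hcon R hR))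
  obtain ⟨f, u, hfb, hfD⟩ := geometric_hahn_banach_open (convex_ball (0:X) e) Metric.isOpen_ball
    hDc hdisj
  have hu : 0 < u := by
    have := hfb 0 (Metric.mem_ball_self he); simpa using this
  -- infimum of f on K
  obtain ⟨B, hB⟩ := h.bdd.exists_norm_le
  have hbelow : BddBelow (f '' K) := by
    refine ⟨-(‖f‖ * B), ?_⟩
    rintro _ ⟨k, hk, rfl⟩
    have h1 : |f k| ≤ ‖f‖ * ‖k‖ := f.le_opNorm k
    have h2 : ‖f‖ * ‖k‖ ≤ ‖f‖ * B := mul_le_mul_of_nonneg_left (hB k hk) (norm_nonneg _)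
    have := (abs_le.mp h1).1
    linarith
  have hne : (f '' K).Nonempty := h.nonempty.image _
  set I := sInf (f '' K) with hI
  obtain ⟨_, ⟨k, hk, rfl⟩, hklt⟩ := exists_lt_of_csInf_lt hne (show I < I + u by linarith)
  -- approximate k by R x
  have hkc : k ∈ closure {w | ∃ R, InG K T R ∧ R x = w} := by
    rw [h.closure_orbit hx]; exact hk
  have hopen : IsOpen {w : X | f w < I + u} := isOpen_lt f.continuous continuous_const
  obtain ⟨w, hw1, R, hR, rfl⟩ := mem_closure_iff.mp hkc _ hopen hklt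
  have h1 : u ≤ f (R x - R y) := hfD _ ⟨R, hR, rfl⟩
  have h2 : I ≤ f (R y) := csInf_le hbelow ⟨_, hR.ne.maps hy, rfl⟩
  rw [map_sub] at h1
  have h3 : f (R x) < I + u := hw1
  linarith

lemma MinInv.collapse_finite (h : MinInv K T) (d : ℕ → X) (hd : ∀ n, d n ∈ K) (N : ℕ) :
    ∀ e : ℝ, 0 < e → ∃ R, InG K T R ∧ ∀ i ≤ N, ∀ j ≤ N, ‖R (d i) - R (d j)‖ ≤ e := by
  induction N with
  | zero =>
    intro e he
    refine ⟨_, InG.id, fun i hi j hj => ?_⟩
    obtain rfl : i = 0 := by omega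
    obtain rfl : j = 0 := by omega
    simpa using he.le
  | succ N ih =>
    intro e he
    obtain ⟨R, hR, hRb⟩ := ih (e / 2) (by linarith)
    obtain ⟨S, hS, hSb⟩ := h.collapse (hR.ne.maps (hd 0)) (hR.ne.maps (hd (N + 1)))
      (show (0:ℝ) < e / 2 by linarith)
    have hle : ∀ i ≤ N, ∀ j ≤ N, ‖S (R (d i)) - S (R (d j))‖ ≤ e / 2 := fun i hi j hj =>
      (hS.ne.le _ (hR.ne.maps (hd i)) _ (hR.ne.maps (hd j))).trans (hRb i hi j hj)
    have hlast : ∀ i ≤ N, ‖S (R (d i)) - S (R (d (N + 1)))‖ ≤ e := by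
      intro i hi
      have h1 := hle i hi 0 (Nat.zero_le _)
      have : S (R (d i)) - S (R (d (N + 1))) =
        (S (R (d i)) - S (R (d 0))) + (S (R (d 0)) - S (R (d (N + 1)))) := by abel
      rw [this]
      refine (norm_add_le _ _).trans ?_
      linarith [hSb.le]
    refine ⟨_, hS.comp hR h.ne, fun i hi j hj => ?_⟩
    rcases Nat.lt_or_ge i (N + 1) with hi' | hi'
    · rcases Nat.lt_or_ge j (N + 1) with hj' | hj'
      · exact (hle i (by omega) j (by omega)).trans (by linarith)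
      · obtain rfl : j = N + 1 := by omega
        exact hlast i (by omega)
    · obtain rfl : i = N + 1 := by omega
      rcases Nat.lt_or_ge j (N + 1) with hj' | hj'
      · rw [norm_sub_rev]; exact hlast j (by omega)
      · obtain rfl : j = N + 1 := by omega
        simpa using he.le

/-- Step 1, final form. -/
theorem MinInv.exists_seq [CompleteSpace X] (h : MinInv K T) (d : ℕ → X) (hd : ∀ n, d n ∈ K) :
    ∃ R : ℕ → X → X, (∀ n, InG K T (R n)) ∧
      (∀ n, ∀ x ∈ K, ‖T (R n x) - R n x‖ ≤ 1 / ((n : ℝ) + 1)) ∧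
      ∀ n, ∀ i ≤ n, ∀ j ≤ n, ‖R n (d i) - R n (d j)‖ ≤ 1 / ((n : ℝ) + 1) := by
  have hdiam : (0:ℝ) ≤ Metric.diam K := Metric.diam_nonneg
  have hex : ∀ n : ℕ, ∃ R, InG K T R ∧ (∀ x ∈ K, ‖T (R x) - R x‖ ≤ 1 / ((n : ℝ) + 1)) ∧
      ∀ i ≤ n, ∀ j ≤ n, ‖R (d i) - R (d j)‖ ≤ 1 / ((n : ℝ) + 1) := by
    intro n
    have hn : (0:ℝ) < (n:ℝ) + 1 := by positivity
    obtain ⟨R, hR, hRb⟩ := h.collapse_finite d hd n (1 / ((n : ℝ) + 1)) (by positivity)
    set l : ℝ := 1 / (((n : ℝ) + 1) * (Metric.diam K + 1)) with hl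
    have hl0 : 0 < l := by positivity
    have hl1 : l ≤ 1 := by
      rw [hl, div_le_one (by positivity)]
      nlinarith [hn, hdiam, (Nat.cast_nonneg n : (0:ℝ) ≤ n)]
    obtain ⟨z, hz, hzb⟩ := exists_resolvent (T := T) h.closed h.convex h.ne hl0 hl1
    refine ⟨_, hz.comp hR h.ne, fun x hx => ?_, fun i hi j hj => ?_⟩
    · have hRx := hR.ne.maps hx
      rw [hzb _ hRx]
      have h1 : ‖T (z (R x)) - R x‖ ≤ Metric.diam K :=
        exists_dist_le h.bdd _ (h.ne.maps (hz.ne.maps hRx)) _ hRx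
      calc l * ‖T (z (R x)) - R x‖ ≤ l * (Metric.diam K + 1) :=
            mul_le_mul_of_nonneg_left (by linarith) hl0.le
        _ = 1 / ((n:ℝ) + 1) := by
            rw [hl]; field_simp
    · exact (hz.ne.le _ (hR.ne.maps (hd i)) _ (hR.ne.maps (hd j))).trans (hRb i hi j hj)
  choose R hR using hex
  exact ⟨R, fun n => (hR n).1, fun n => (hR n).2.1, fun n => (hR n).2.2⟩

/-- F1: pointwise convergence of functionals propagates from `d 0` to all of `K`. -/
lemma tendsto_functional {R : ℕ → X → X} {d : ℕ → X} (hd : ∀ n, d n ∈ K)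
    (hdense : K ⊆ closure (range d)) (hR : ∀ n, NE K (R n))
    (hcoll : ∀ n, ∀ i ≤ n, ∀ j ≤ n, ‖R n (d i) - R n (d j)‖ ≤ 1 / ((n : ℝ) + 1))
    {φ : ℕ → ℕ} (hφ : StrictMono φ) (f : X →L[ℝ] ℝ) {c : ℝ}
    (hlim : Tendsto (fun n => f (R (φ n) (d 0))) atTop (𝓝 c)) {x : X} (hx : x ∈ K) :
    Tendsto (fun n => f (R (φ n) x)) atTop (𝓝 c) := by
  rw [Metric.tendsto_atTop] at hlim ⊢
  intro e he
  have hpos : 0 < ‖f‖ + 1 := by positivity
  obtain ⟨_, ⟨i, rfl⟩, hxi⟩ := Metric.mem_closure_iff.mp (hdense hx) (e / (3 * (‖f‖ + 1)))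
    (by positivity)
  obtain ⟨N1, hN1⟩ := hlim (e / 3) (by linarith)
  obtain ⟨N2, hN2⟩ := exists_nat_gt (3 * (‖f‖ + 1) / e)
  refine ⟨max N1 (max N2 i), fun n hn => ?_⟩
  have hn1 : N1 ≤ n := (le_max_left _ _).trans hn
  have hn2 : N2 ≤ n := (le_max_left _ _).trans ((le_max_right _ _).trans hn)
  have hn3 : i ≤ n := (le_max_right _ _).trans ((le_max_right _ _).trans hn)
  have hφn : n ≤ φ n := hφ.id_le n
  have a1 : ‖R (φ n) x - R (φ n) (d i)‖ ≤ e / (3 * (‖f‖ + 1)) := by
    refine ((hR (φ n)).le _ hx _ (hd i)).trans ?_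
    rw [← dist_eq_norm]; exact hxi.le
  have a2 : ‖R (φ n) (d i) - R (φ n) (d 0)‖ ≤ 1 / ((φ n : ℝ) + 1) :=
    hcoll _ i (hn3.trans hφn) 0 (Nat.zero_le _)
  have a3 : 1 / ((φ n : ℝ) + 1) ≤ e / (3 * (‖f‖ + 1)) := by
    rw [div_le_div_iff₀ (by positivity) (by positivity)]
    have : (N2 : ℝ) ≤ (φ n : ℝ) := by exact_mod_cast hn2.trans hφn
    rw [div_lt_iff₀ he] at hN2
    nlinarith
  have b1 : |f (R (φ n) x) - f (R (φ n) (d 0))| ≤ ‖f‖ * (e / (3 * (‖f‖ + 1)) + e / (3 * (‖f‖ + 1))) := by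
    rw [← map_sub]
    refine (f.le_opNorm _).trans (mul_le_mul_of_nonneg_left ?_ (norm_nonneg _))
    have : R (φ n) x - R (φ n) (d 0) =
      (R (φ n) x - R (φ n) (d i)) + (R (φ n) (d i) - R (φ n) (d 0)) := by abel
    rw [this]
    exact (norm_add_le _ _).trans (add_le_add a1 (a2.trans a3))
  have b2 : ‖f‖ * (e / (3 * (‖f‖ + 1)) + e / (3 * (‖f‖ + 1))) < 2 * e / 3 := by
    have : ‖f‖ * (e / (3 * (‖f‖ + 1)) + e / (3 * (‖f‖ + 1))) = (2 * e / 3) * (‖f‖ / (‖f‖ + 1)) := by
      field_simp; ring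
    rw [this]
    have h1 : ‖f‖ / (‖f‖ + 1) < 1 := by rw [div_lt_one hpos]; linarith
    have h2 : 0 < 2 * e / 3 := by linarith
    nlinarith
  have b3 := hN1 n hn1
  rw [Real.dist_eq] at b3 ⊢
  have : f (R (φ n) x) - c = (f (R (φ n) x) - f (R (φ n) (d 0))) + (f (R (φ n) (d 0)) - c) := by ring
  rw [this]
  refine (abs_add_le _ _).trans_lt ?_
  linarith

/-- F2. -/
lemma InG.tendsto_approx {R : X → X} (hR : InG K T R) {f : ℕ → X} (hf : ∀ n, f n ∈ K)
    (hTf : Tendsto (fun n => ‖T (f n) - f n‖) atTop (𝓝 0)) :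
    Tendsto (fun n => ‖R (f n) - f n‖) atTop (𝓝 0) := by
  obtain ⟨C, hC, hb⟩ := hR.bd
  refine squeeze_zero (fun n => norm_nonneg _) (fun n => hb _ (hf n)) ?_
  simpa using hTf.const_mul C

/-- F3, Goebel-Karlovitz. -/
theorem MinInv.goebel_karlovitz (h : MinInv K T) {f : ℕ → X} (hf : ∀ n, f n ∈ K)
    (hTf : Tendsto (fun n => ‖T (f n) - f n‖) atTop (𝓝 0)) {p : X} (hp : p ∈ K)
    (hw : ∀ j : X →L[ℝ] ℝ, Tendsto (fun n => j (f n)) atTop (𝓝 (j p)))
    {q : X} (hq : q ∈ K) {e : ℝ} (he : 0 < e) :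
    ∃ᶠ n in atTop, Metric.diam K - e < ‖f n - q‖ := by
  by_contra hcon
  rw [Filter.not_frequently] at hcon
  set c : ℝ := Metric.diam K - e with hc
  have hq0 : ∀ᶠ n in atTop, ‖f n - q‖ ≤ c := hcon.mono fun n hn => not_lt.mp hn
  -- the sublevel set
  set A : Set X := {y | y ∈ K ∧ ∀ η : ℝ, 0 < η → ∀ᶠ n in atTop, ‖f n - y‖ ≤ c + η} with hA
  have hAK : A = K := by
    refine h.min A (fun y hy => hy.1) ⟨q, hq, fun η hη => hq0.mono fun n hn => by linarith⟩ ?_ ?_ ?_
    · -- closed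
      refine isClosed_of_closure_subset fun y hy => ?_
      have hyK : y ∈ K := closure_minimal (fun w (hw : w ∈ A) => hw.1) h.closed hy
      refine ⟨hyK, fun η hη => ?_⟩
      obtain ⟨w, hwA, hd⟩ := Metric.mem_closure_iff.mp hy (η / 2) (by linarith)
      filter_upwards [hwA.2 (η / 2) (by linarith)] with n hn
      have : f n - y = (f n - w) - (y - w) := by abel
      rw [this]
      refine (norm_sub_le _ _).trans ?_
      rw [dist_eq_norm] at hd
      linarith
    · -- convex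
      rintro y hy w hw a b ha hb hab
      refine ⟨h.convex hy.1 hw.1 ha hb hab, fun η hη => ?_⟩
      filter_upwards [hy.2 η hη, hw.2 η hη] with n h1 h2
      have : f n - (a • y + b • w) = a • (f n - y) + b • (f n - w) := by
        have : f n = a • f n + b • f n := by rw [← add_smul, hab, one_smul]
        conv_lhs => rw [this]
        simp only [smul_sub]; abel
      rw [this]
      refine (norm_add_le _ _).trans ?_
      rw [norm_smul, norm_smul, Real.norm_of_nonneg ha, Real.norm_of_nonneg hb]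
      calc a * ‖f n - y‖ + b * ‖f n - w‖ ≤ a * (c + η) + b * (c + η) := by gcongr
        _ = c + η := by rw [← add_mul, hab, one_mul]
    · -- invariant
      rintro y hy
      refine ⟨h.ne.maps hy.1, fun η hη => ?_⟩
      have hT' : ∀ᶠ n in atTop, ‖T (f n) - f n‖ < η / 2 :=
        hTf.eventually_lt_const (by linarith)
      filter_upwards [hT', hy.2 (η / 2) (by linarith)] with n h1 h2
      have : f n - T y = (T (f n) - T y) - (T (f n) - f n) := by abel
      rw [this]
      refine (norm_sub_le _ _).trans ?_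
      have := h.ne.le _ (hf n) _ hy.1
      linarith
  -- p is a c-center of K
  have hpc : ∀ y ∈ K, ‖p - y‖ ≤ c := by
    intro y hy
    refine le_of_forall_pos_le_add fun η hη => ?_
    have hyA : y ∈ A := by rw [hAK]; exact hy
    obtain ⟨j, hj1, hj2⟩ := exists_dual_vector'' ℝ (p - y)
    have hlim : Tendsto (fun n => j (f n - y)) atTop (𝓝 (j (p - y))) := by
      simp only [map_sub]
      exact (hw j).sub tendsto_const_nhds
    have hle : ∀ᶠ n in atTop, j (f n - y) ≤ c + η := by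
      filter_upwards [hyA.2 η hη] with n hn
      calc j (f n - y) ≤ |j (f n - y)| := le_abs_self _
        _ ≤ ‖j‖ * ‖f n - y‖ := j.le_opNorm _
        _ ≤ 1 * ‖f n - y‖ := mul_le_mul_of_nonneg_right hj1 (norm_nonneg _)
        _ ≤ c + η := by rw [one_mul]; exact hn
    have := le_of_tendsto hlim hle
    rw [hj2] at this
    simpa using this
  set D : Set X := {y | y ∈ K ∧ ∀ w ∈ K, ‖y - w‖ ≤ c} with hD
  have hDK : D = K := by
    refine h.min D (fun y hy => hy.1) ⟨p, hp, hpc⟩ ?_ ?_ ?_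
    · have : D = K ∩ ⋂ w ∈ K, {y | ‖y - w‖ ≤ c} := by
        ext y; simp [hD]
      rw [this]
      refine h.closed.inter (isClosed_biInter fun w _ => ?_)
      exact isClosed_le (by fun_prop) continuous_const
    · rintro y hy w hw a b ha hb hab
      refine ⟨h.convex hy.1 hw.1 ha hb hab, fun k hk => ?_⟩
      have : (a • y + b • w) - k = a • (y - k) + b • (w - k) := by
        have : k = a • k + b • k := by rw [← add_smul, hab, one_smul]
        conv_lhs => rw [this]
        simp only [smul_sub]; abel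
      rw [this]
      refine (norm_add_le _ _).trans ?_
      rw [norm_smul, norm_smul, Real.norm_of_nonneg ha, Real.norm_of_nonneg hb]
      calc a * ‖y - k‖ + b * ‖w - k‖ ≤ a * c + b * c := by
            gcongr
            · exact hy.2 k hk
            · exact hw.2 k hk
        _ = c := by rw [← add_mul, hab, one_mul]
    · rintro y hy
      refine ⟨h.ne.maps hy.1, ?_⟩
      set B : Set X := {w | w ∈ K ∧ ‖T y - w‖ ≤ c} with hB
      have hBT : ∀ w ∈ K, T w ∈ B := fun w hw =>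
        ⟨h.ne.maps hw, (h.ne.le _ hy.1 _ hw).trans (hy.2 w hw)⟩
      have hBK : B = K := by
        refine h.min B (fun y hy => hy.1) ⟨T p, hBT p hp⟩ ?_ ?_ (fun w hw => hBT w hw.1)
        · have : B = K ∩ {w | ‖T y - w‖ ≤ c} := by ext w; simp [hB]
          rw [this]
          exact h.closed.inter (isClosed_le (by fun_prop) continuous_const)
        · rintro w hw k hk a b ha hb hab
          refine ⟨h.convex hw.1 hk.1 ha hb hab, ?_⟩
          have : T y - (a • w + b • k) = a • (T y - w) + b • (T y - k) := by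
            have : T y = a • T y + b • T y := by rw [← add_smul, hab, one_smul]
            conv_lhs => rw [this]
            simp only [smul_sub]; abel
          rw [this]
          refine (norm_add_le _ _).trans ?_
          rw [norm_smul, norm_smul, Real.norm_of_nonneg ha, Real.norm_of_nonneg hb]
          calc a * ‖T y - w‖ + b * ‖T y - k‖ ≤ a * c + b * c := by
                gcongr
                · exact hw.2
                · exact hk.2
            _ = c := by rw [← add_mul, hab, one_mul]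
      intro w hw
      rw [← hBK] at hw
      exact hw.2
  have hc0 : 0 ≤ c := (norm_nonneg _).trans (hpc p hp)
  have : Metric.diam K ≤ c := by
    refine Metric.diam_le_of_forall_dist_le hc0 fun y hy w hw => ?_
    rw [← hDK] at hy
    rw [dist_eq_norm]; exact hy.2 w hw
  linarith

end coll

end Crest.Agent.R108.Coll
end

-- ▼ part R108/ClassG

set_option autoImplicit false

open Filter Topology Set

namespace Crest.Agent.R108

universe u

section Sys

variable {Y : Type u} [NormedAddCommGroup Y] [NormedSpace ℝ Y]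

lemma MinSys.bounded (M : MinSys Y) : Bornology.IsBounded M.K := by
  rw [Metric.isBounded_iff]
  exact ⟨1, fun x hx y hy => by rw [dist_eq_norm]; exact M.diam_le x hx y hy⟩

lemma MinSys.minInv (M : MinSys Y) : Coll.MinInv M.K M.T :=
  ⟨M.nonempty, M.closed, M.convex, M.bounded, ⟨M.mapsTo, M.nonexp⟩, M.minimal⟩

lemma MinSys.diam_eq (M : MinSys Y) : Metric.diam M.K = 1 := by
  refine le_antisymm (Metric.diam_le_of_forall_dist_le zero_le_one fun x hx y hy => by
    rw [dist_eq_norm]; exact M.diam_le x hx y hy) ?_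
  refine le_of_forall_lt fun c hc => ?_
  obtain ⟨x, hx, y, hy, h⟩ := M.diam_ge c hc
  rw [← dist_eq_norm] at h
  exact h.trans_le (Metric.dist_le_diam_of_mem M.bounded hx hy)








end Sys

end Crest.Agent.R108
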