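import Mathlib

set_option autoImplicit false

namespace Crest.Agent.R108.W229

open Set Filter Topology

variable {X : Type*} [NormedAddCommGroup X] [NormedSpace ℝ X]

/-- Closed bounded convex sets in a reflexive space are weakly compact. -/
theorem isCompact_weak (hX : Function.Surjective (NormedSpace.inclusionInDoubleDual ℝ X))
    {S : Set X} (hS : IsClosed S) (hc : Convex ℝ S) (hb : Bornology.IsBounded S) :
    IsCompact (toWeakSpace ℝ X '' S) := by
  have hb' : Bornology.IsBounded ((toWeakSpace ℝ X) ⁻¹' (toWeakSpace ℝ X '' S)) := by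
    rw [preimage_image_eq _ (toWeakSpace ℝ X).injective]; exact hb
  have hr : closure (NormedSpace.inclusionInDoubleDualWeak ℝ X '' (toWeakSpace ℝ X '' S)) ⊆
      Set.range (NormedSpace.inclusionInDoubleDualWeak ℝ X) := by
    intro y _
    obtain ⟨x, hx⟩ := hX (WeakDual.toStrongDual y)
    refine ⟨toWeakSpace ℝ X x, ?_⟩
    refine DFunLike.ext _ _ fun f => ?_
    exact congrArg (fun g : StrongDual ℝ (StrongDual ℝ X) => g f) hx
  have h := NormedSpace.isCompact_closure_of_isBounded ℝ X (toWeakSpace ℝ X '' S) hb' hr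
  rwa [← hc.toWeakSpace_closure ℝ, hS.closure_eq] at h

/-- Closed convex sets are weakly closed. -/
theorem isClosed_weak {S : Set X} (hS : IsClosed S) (hc : Convex ℝ S) :
    IsClosed (toWeakSpace ℝ X '' S) := by
  rw [← closure_eq_iff_isClosed, ← hc.toWeakSpace_closure ℝ, hS.closure_eq]

theorem tendsto_weak_iff {α : Type*} {l : Filter α} {x : α → X} {p : X} :
    Tendsto (fun n => toWeakSpace ℝ X (x n)) l (𝓝 (toWeakSpace ℝ X p)) ↔
      ∀ j : X →L[ℝ] ℝ, Tendsto (fun n => j (x n)) l (𝓝 (j p)) := by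
  have hinj : Function.Injective (topDualPairing ℝ X).flip := by
    intro a b hab
    by_contra hne
    obtain ⟨f, hf⟩ := SeparatingDual.exists_separating_of_ne (R := ℝ) hne
    exact hf (by simpa using DFunLike.congr_fun hab f)
  exact WeakBilin.tendsto_iff_forall_eval_tendsto (topDualPairing ℝ X).flip hinj

/-- Nonempty closed convex `F`-invariant sets. -/
structure Inv (F : X → X) (K : Set X) : Prop where
  ne : K.Nonempty
  cl : IsClosed K
  cv : Convex ℝ K
  inv : MapsTo F K K

theorem exists_minimal (hX : Function.Surjective (NormedSpace.inclusionInDoubleDual ℝ X))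
    {C : Set X} {F : X → X} (hC : Inv F C) (hb : Bornology.IsBounded C) :
    ∃ K ⊆ C, Inv F K ∧ ∀ L ⊆ K, Inv F L → L = K := by
  have H : ∀ c ⊆ {K : Set X | K ⊆ C ∧ Inv F K}, IsChain (· ⊆ ·) c → c.Nonempty →
      ∃ lb ∈ {K : Set X | K ⊆ C ∧ Inv F K}, ∀ s ∈ c, lb ⊆ s := by
    intro c hc hchain hne
    refine ⟨⋂₀ c, ⟨?_, ?_, ?_, ?_, ?_⟩, fun s hs => sInter_subset_of_mem hs⟩
    · obtain ⟨s, hs⟩ := hne
      exact (sInter_subset_of_mem hs).trans (hc hs).1
    · -- nonempty by weak compactness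
      have : Nonempty c := hne.to_subtype
      have hdir : Directed (· ⊇ ·) (fun s : c => toWeakSpace ℝ X '' (s : Set X)) := by
        intro a b
        rcases hchain.total a.2 b.2 with h | h
        · exact ⟨a, Subset.rfl, image_mono h⟩
        · exact ⟨b, image_mono h, Subset.rfl⟩
      have hn := IsCompact.nonempty_iInter_of_directed_nonempty_isCompact_isClosed _ hdir
        (fun s => (hc s.2).2.ne.image _)
        (fun s => isCompact_weak hX (hc s.2).2.cl (hc s.2).2.cv (hb.subset (hc s.2).1))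
        (fun s => isClosed_weak (hc s.2).2.cl (hc s.2).2.cv)
      obtain ⟨w, hw⟩ := hn
      refine ⟨(toWeakSpace ℝ X).symm w, fun s hs => ?_⟩
      obtain ⟨x, hx, hxw⟩ := mem_iInter.1 hw ⟨s, hs⟩
      rw [← hxw]; simpa using hx
    · exact isClosed_sInter fun s hs => (hc hs).2.cl
    · exact convex_sInter fun s hs => (hc hs).2.cv
    · intro x hx s hs
      exact (hc hs).2.inv (hx s hs)
  obtain ⟨m, hmC, hm⟩ := zorn_superset_nonempty {K : Set X | K ⊆ C ∧ Inv F K} H C
    ⟨Subset.rfl, hC⟩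
  refine ⟨m, hmC, hm.prop.2, fun L hL hLi => ?_⟩
  exact Subset.antisymm hL (hm.le_of_le ⟨hL.trans hmC, hLi⟩ hL)

theorem isSeparable_convexHull {s : Set X} (hs : TopologicalSpace.IsSeparable s) :
    TopologicalSpace.IsSeparable (convexHull ℝ s) :=
  (hs.span (R := ℝ)).mono
    (convexHull_min Submodule.subset_span (Submodule.span ℝ s).convex)

/-- Every nonempty closed convex invariant set (for `F` continuous on it) contains a separable one. -/
theorem exists_separable {C : Set X} {F : X → X} (hC : Inv F C) (hF : ContinuousOn F C) :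
    ∃ L ⊆ C, Inv F L ∧ TopologicalSpace.IsSeparable L := by
  obtain ⟨x0, hx0⟩ := hC.ne
  let D : ℕ → Set X := fun n => Nat.rec {x0} (fun _ d => convexHull ℝ (d ∪ F '' d)) n
  have hD0 : D 0 = {x0} := rfl
  have hDs : ∀ n, D (n + 1) = convexHull ℝ (D n ∪ F '' D n) := fun n => rfl
  have hDC : ∀ n, D n ⊆ C := by
    intro n
    induction n with
    | zero => rw [hD0]; simpa using hx0
    | succ n ih =>
      rw [hDs]
      exact convexHull_min (union_subset ih ((hC.inv.mono ih Subset.rfl).image_subset)) hC.cv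
  have hsub : ∀ n, D n ⊆ D (n + 1) := fun n => by
    rw [hDs]; exact subset_union_left.trans (subset_convexHull ℝ _)
  have hmono : Monotone D := monotone_nat_of_le_succ hsub
  have hcv : ∀ n, Convex ℝ (D n) := by
    intro n
    cases n with
    | zero => rw [hD0]; exact convex_singleton _
    | succ n => rw [hDs]; exact convex_convexHull ℝ _
  have hsep : ∀ n, TopologicalSpace.IsSeparable (D n) := by
    intro n
    induction n with
    | zero => rw [hD0]; exact (finite_singleton x0).isSeparable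
    | succ n ih =>
      rw [hDs]
      refine isSeparable_convexHull (ih.union ?_)
      exact (hF.mono (hDC n)).isSeparable_image ih
  refine ⟨closure (⋃ n, D n), ?_, ⟨?_, isClosed_closure, ?_, ?_⟩, ?_⟩
  · exact closure_minimal (iUnion_subset hDC) hC.cl
  · exact ⟨x0, subset_closure (mem_iUnion.2 ⟨0, by simp [hD0]⟩)⟩
  · exact (Directed.convex_iUnion hmono.directed_le (fun {i} => hcv i)).closure
  · have h1 : MapsTo F (⋃ n, D n) (⋃ n, D n) := by
      intro x hx
      obtain ⟨n, hn⟩ := mem_iUnion.1 hx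
      refine mem_iUnion.2 ⟨n + 1, ?_⟩
      rw [hDs]
      exact subset_convexHull ℝ _ (Or.inr ⟨x, hn, rfl⟩)
    exact h1.closure_of_continuousOn (hF.mono (closure_minimal (iUnion_subset hDC) hC.cl))
  · exact (TopologicalSpace.IsSeparable.iUnion hsep).closure

/-- A separable set is separated by countably many functionals. -/
theorem exists_separating_seq {K : Set X} (hK : TopologicalSpace.IsSeparable K) :
    ∃ j : ℕ → (X →L[ℝ] ℝ), ∀ x ∈ K, ∀ y ∈ K, (∀ i, j i x = j i y) → x = y := by
  have hS : TopologicalSpace.IsSeparable ((fun q : X × X => q.1 - q.2) '' (K ×ˢ K)) :=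
    (hK.prod hK).image (by fun_prop)
  obtain ⟨c, hc, hcS⟩ := hS
  rcases c.eq_empty_or_nonempty with rfl | hne
  · refine ⟨fun _ => 0, fun x hx y hy _ => ?_⟩
    have := hcS ⟨(x, y), ⟨hx, hy⟩, rfl⟩
    simp at this
  obtain ⟨y, hy⟩ := hc.exists_eq_range hne
  choose j hj1 hj2 using fun i => exists_dual_vector'' ℝ (y i)
  refine ⟨j, fun a ha b hb hab => ?_⟩
  have hmem := hcS ⟨(a, b), ⟨ha, hb⟩, rfl⟩
  rw [← sub_eq_zero, ← norm_le_zero_iff]
  refine le_of_forall_pos_le_add fun ε hε => ?_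
  obtain ⟨z, hz, hzd⟩ := Metric.mem_closure_iff.1 hmem (ε / 2) (by positivity)
  rw [hy] at hz
  obtain ⟨i, rfl⟩ := hz
  have hd : ‖(a - b) - y i‖ < ε / 2 := by simpa [dist_eq_norm] using hzd
  have h0 : j i (a - b) = 0 := by rw [map_sub, hab i, sub_self]
  have h1 : ‖y i‖ ≤ ε / 2 := by
    have h3 : (‖y i‖ : ℝ) = j i (y i - (a - b)) := by
      rw [map_sub, h0, sub_zero]; exact (hj2 i).symm
    rw [h3]
    calc j i (y i - (a - b)) ≤ ‖j i (y i - (a - b))‖ := le_abs_self _
      _ ≤ ‖j i‖ * ‖y i - (a - b)‖ := (j i).le_opNorm _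
      _ ≤ 1 * (ε / 2) := by
          refine mul_le_mul (hj1 i) ?_ (norm_nonneg _) zero_le_one
          rw [norm_sub_rev]; exact hd.le
      _ = ε / 2 := one_mul _
  calc ‖a - b‖ = ‖((a - b) - y i) + y i‖ := by rw [sub_add_cancel]
    _ ≤ ‖(a - b) - y i‖ + ‖y i‖ := norm_add_le _ _
    _ ≤ ε / 2 + ε / 2 := add_le_add hd.le h1
    _ = 0 + ε := by ring

/-- Weak sequential compactness of separable closed bounded convex sets in reflexive spaces. -/
theorem weak_subseq (hX : Function.Surjective (NormedSpace.inclusionInDoubleDual ℝ X))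
    {K : Set X} (hcl : IsClosed K) (hcv : Convex ℝ K) (hb : Bornology.IsBounded K)
    (hsep : TopologicalSpace.IsSeparable K) {x : ℕ → X} (hx : ∀ n, x n ∈ K) :
    ∃ p ∈ K, ∃ φ : ℕ → ℕ, StrictMono φ ∧
      ∀ j : X →L[ℝ] ℝ, Tendsto (fun n => j (x (φ n))) atTop (𝓝 (j p)) := by
  obtain ⟨j, hj⟩ := exists_separating_seq hsep
  obtain ⟨M, hM⟩ := hb.exists_norm_le
  have hcpt : IsCompact (Set.pi univ fun i : ℕ => Icc (-(‖j i‖ * M)) (‖j i‖ * M)) :=
    isCompact_univ_pi fun i => isCompact_Icc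
  have hmem : ∀ n, (fun i => j i (x n)) ∈
      Set.pi univ fun i : ℕ => Icc (-(‖j i‖ * M)) (‖j i‖ * M) := by
    intro n i _
    have h1 : |j i (x n)| ≤ ‖j i‖ * M :=
      ((j i).le_opNorm (x n)).trans (mul_le_mul_of_nonneg_left (hM _ (hx n)) (norm_nonneg _))
    exact abs_le.1 h1
  obtain ⟨a, -, φ, hφ, hlim⟩ := hcpt.tendsto_subseq hmem
  have hlim' : ∀ i, Tendsto (fun n => j i (x (φ n))) atTop (𝓝 (a i)) := fun i =>
    (tendsto_pi_nhds.1 hlim i)
  have hK' := isCompact_weak hX hcl hcv hb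
  let u : ℕ → WeakSpace ℝ X := fun n => toWeakSpace ℝ X (x (φ n))
  have hu : ∀ᶠ n in atTop, u n ∈ toWeakSpace ℝ X '' K :=
    Eventually.of_forall fun n => mem_image_of_mem _ (hx _)
  obtain ⟨p', hp'K, hp'⟩ := hK'.exists_mapClusterPt_of_frequently hu.frequently
  have hval : ∀ q ∈ K, MapClusterPt (toWeakSpace ℝ X q) atTop u → ∀ i, j i q = a i := by
    intro q _ hq i
    have hev : Continuous fun w : WeakSpace ℝ X => (topDualPairing ℝ X).flip w (j i) :=
      WeakBilin.eval_continuous (topDualPairing ℝ X).flip (j i)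
    have h2 := hq.continuousAt_comp hev.continuousAt
    have h3 := hlim' i
    by_contra hne
    have hdis := (disjoint_nhds_nhds.2 hne)
    have h4 : MapClusterPt (j i q) atTop (fun n => j i (x (φ n))) := h2
    rw [MapClusterPt, ClusterPt] at h4
    have h5 : map (fun n => j i (x (φ n))) atTop ≤ 𝓝 (a i) := h3
    exact h4.ne (disjoint_iff.1 (hdis.mono_right h5))
  obtain ⟨p, hpK, rfl⟩ := hp'K
  refine ⟨p, hpK, φ, hφ, tendsto_weak_iff.1 ?_⟩
  refine hK'.tendsto_nhds_of_unique_mapClusterPt hu ?_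
  rintro _ ⟨q, hqK, rfl⟩ hq
  have : q = p := hj q hqK p hpK fun i => by rw [hval q hqK hq i, hval p hpK hp' i]
  rw [this]


end Crest.Agent.R108.W229
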