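import Crest.Agent.R108.ClassG
import Crest.Agent.R108.Defs
import Crest.Agent.R108.Weak
import Crest.Agent.R108.GK
import Crest.Agent.R108.Min3_Mg

-- ▼ part R108/Weak3
section

/-! # R108 (S0142), W3: weak sequential compactness. -/

set_option autoImplicit false

open Filter Topology Set

namespace Crest.Agent.R108

universe u

section Weak

variable {X : Type u} [NormedAddCommGroup X] [NormedSpace ℝ X] [CompleteSpace X]

/-- W3. weak sequential compactness in the separable reflexive case. -/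
theorem weak_seq_compact [TopologicalSpace.SeparableSpace X] (hX : Refl X) (K : Set X)
    (hc : IsClosed K) (hconv : Convex ℝ K) (hb : Bornology.IsBounded K) (a : ℕ → X)
    (ha : ∀ n, a n ∈ K) :
    ∃ x ∈ K, ∃ φ : ℕ → ℕ, StrictMono φ ∧ WTendsto (fun n => a (φ n)) x :=
  W229.weak_subseq hX hc hconv hb (TopologicalSpace.IsSeparable.of_separableSpace K) ha

end Weak

end Crest.Agent.R108
end

-- ▼ part R108/ExData
section

set_option autoImplicit false

open Filter Topology Set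

namespace Crest.Agent.R108

universe u

/-- G6. assembly of the data, from weak sequential compactness. -/
theorem exists_data_of {Y : Type u} [NormedAddCommGroup Y] [NormedSpace ℝ Y] [CompleteSpace Y]
    [TopologicalSpace.SeparableSpace Y]
    (hW : ∀ (K : Set Y), IsClosed K → Convex ℝ K → Bornology.IsBounded K → ∀ a : ℕ → Y,
      (∀ n, a n ∈ K) → ∃ x ∈ K, ∃ φ : ℕ → ℕ, StrictMono φ ∧ WTendsto (fun n => a (φ n)) x)
    (M : MinSys Y) :
    Nonempty (Data Y) := by
  obtain ⟨x0, hx0⟩ := M.nonempty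
  haveI : Nonempty M.K := ⟨⟨x0, hx0⟩⟩
  obtain ⟨d', hd'⟩ := TopologicalSpace.exists_dense_seq M.K
  set d : ℕ → Y := fun n => (d' n : Y) with hd
  have hdK : ∀ n, d n ∈ M.K := fun n => (d' n).2
  have hdense : M.K ⊆ closure (range d) := by
    intro x hx
    have : (⟨x, hx⟩ : M.K) ∈ closure (range d') := hd' _
    have h2 := image_closure_subset_closure_image (f := ((↑) : M.K → Y)) continuous_subtype_val
      (mem_image_of_mem _ this)
    rw [← range_comp] at h2
    exact h2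
  obtain ⟨R, hR, hT, hcoll⟩ := M.minInv.exists_seq d hdK
  obtain ⟨p, hp, φ, hφ, hw⟩ := hW M.K M.closed M.convex M.bounded (fun n => R n (d 0))
    (fun n => (hR n).ne.maps (hdK 0))
  have hweak : ∀ x ∈ M.K, WTendsto (fun n => R (φ n) x) p := fun x hx f =>
    Coll.tendsto_functional hdK hdense (fun n => (hR n).ne) hcoll hφ f (hw f) hx
  have hTf : Tendsto (fun n => ‖M.T (R (φ n) p) - R (φ n) p‖) atTop (𝓝 0) := by
    refine squeeze_zero (fun n => norm_nonneg _) (fun n => hT (φ n) p hp) ?_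
    exact (tendsto_one_div_add_atTop_nhds_zero_nat (𝕜 := ℝ)).comp hφ.tendsto_atTop
  have hfK : ∀ n, R (φ n) p ∈ M.K := fun n => (hR (φ n)).ne.maps hp
  exact ⟨{
    K := M.K
    closed := M.closed
    convex := M.convex
    diam_le := M.diam_le
    p := p
    hp := hp
    d := d
    hd := hdK
    hdense := hdense
    dense_span := M.dense_span
    R := fun n => R (φ n)
    mapsTo := fun m => (hR (φ m)).ne.maps
    nonexp := fun m => (hR (φ m)).ne.le
    weak := hweak p hp
    fix := fun m => (hR (φ m)).tendsto_approx hfK hTf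
    far := goebel_karlovitz M _ hfK p hp (hweak p hp) hTf }⟩

/-- G6. assembly of the data. -/
theorem exists_data {Y : Type u} [NormedAddCommGroup Y] [NormedSpace ℝ Y] [CompleteSpace Y]
    [TopologicalSpace.SeparableSpace Y] (hY : Refl Y) (M : MinSys Y) :
    Nonempty (Data Y) :=
  exists_data_of (fun K h1 h2 h3 a ha => weak_seq_compact hY K h1 h2 h3 a ha) M

end Crest.Agent.R108
end

-- ▼ part R108/Weak1
section

/-!
# R108 (S0142), W1: closed bounded convex sets of a reflexive space are weakly compact.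
-/

set_option autoImplicit false

open Filter Topology Set

namespace Crest.Agent.R108

universe u

/-- Mazur: a norm-closed convex set is weakly closed. -/
theorem isClosed_toWeakSpace_image {X : Type u} [NormedAddCommGroup X] [NormedSpace ℝ X]
    (K : Set X) (hc : IsClosed K) (hconv : Convex ℝ K) :
    IsClosed ((toWeakSpace ℝ X) '' K) := by
  have h := hconv.toWeakSpace_closure (𝕜 := ℝ)
  rw [hc.closure_eq] at h
  rw [h]
  exact isClosed_closure

theorem range_inclusionWeak {X : Type u} [NormedAddCommGroup X] [NormedSpace ℝ X]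
    (hX : Refl X) : Set.range (NormedSpace.inclusionInDoubleDualWeak ℝ X) = Set.univ := by
  rw [Set.range_eq_univ]
  intro y
  obtain ⟨x, hx⟩ := hX (WeakDual.toStrongDual y)
  refine ⟨toWeakSpace ℝ X x, ?_⟩
  apply DFunLike.ext
  intro φ
  have := congrArg (fun (F : StrongDual ℝ (StrongDual ℝ X)) => F φ) hx
  exact this

section Weak

variable {X : Type u} [NormedAddCommGroup X] [NormedSpace ℝ X] [CompleteSpace X]

omit [CompleteSpace X] in
/-- the closure of a bounded set of a reflexive space is weakly compact -/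
theorem weak_compact_closure (hX : Refl X) (K : Set X) (hb : Bornology.IsBounded K) :
    IsCompact (closure ((toWeakSpace ℝ X) '' K)) := by
  apply NormedSpace.isCompact_closure_of_isBounded
  · rwa [Set.preimage_image_eq _ (toWeakSpace ℝ X).injective]
  · rw [range_inclusionWeak hX]
    exact Set.subset_univ _

/-- W1. closed bounded convex sets are compact in the weak space. -/
theorem weak_compact (hX : Refl X) (K : Set X) (hc : IsClosed K) (hconv : Convex ℝ K)
    (hb : Bornology.IsBounded K) :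
    IsCompact ((toWeakSpace ℝ X) '' K) := by
  have h := weak_compact_closure hX K hb
  rwa [(isClosed_toWeakSpace_image K hc hconv).closure_eq] at h

end Weak

end Crest.Agent.R108
end

-- ▼ part R108/Pcp
section

/-!
# R108 (S0142): point of continuity property (W4)
-/

set_option autoImplicit false

open Filter Topology Set

namespace Crest.Agent.R108

universe u

variable {X : Type u} [NormedAddCommGroup X] [NormedSpace ℝ X] [CompleteSpace X]

namespace Pcp

omit [CompleteSpace X] in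
lemma wtendsto_toWeakSpace {u : ℕ → X} {v : X} (h : WTendsto u v) :
    Tendsto (fun n => toWeakSpace ℝ X (u n)) atTop (𝓝 (toWeakSpace ℝ X v)) := by
  have hB : Function.Injective (topDualPairing ℝ X).flip := by
    intro x y hxy
    by_contra hne
    obtain ⟨f, hf⟩ := SeparatingDual.exists_separating_of_ne (R := ℝ) hne
    exact hf (DFunLike.congr_fun hxy f)
  exact (WeakBilin.tendsto_iff_forall_eval_tendsto (topDualPairing ℝ X).flip hB).2
    fun φ => h φ

end Pcp

theorem pcp [TopologicalSpace.SeparableSpace X] (hX : Refl X) (V : Set X) (hne : V.Nonempty)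
    (hb : Bornology.IsBounded V)
    (h : ∀ v ∈ V, ∃ u : ℕ → X, (∀ n, u n ∈ V) ∧ WTendsto u v ∧ ∀ n, (1 / 2 : ℝ) ≤ ‖u n - v‖) :
    False := by
  classical
  obtain ⟨v₀, hv₀⟩ := hne
  have : Nonempty X := ⟨v₀⟩
  set J := toWeakSpace ℝ X with hJ
  -- a closed ball containing `V`
  obtain ⟨r, hr⟩ := hb.subset_closedBall (0 : X)
  have hball : ∀ (c : X) (ρ : ℝ), IsCompact (J '' Metric.closedBall c ρ) := fun c ρ =>
    weak_compact hX _ Metric.isClosed_closedBall (convex_closedBall c ρ)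
      Metric.isBounded_closedBall
  set C : Set (WeakSpace ℝ X) := closure (J '' V) with hC
  have hCc : IsCompact C :=
    (hball 0 r).of_isClosed_subset isClosed_closure
      (closure_minimal (image_mono hr) (hball 0 r).isClosed)
  have : CompactSpace C := isCompact_iff_compactSpace.1 hCc
  have : Nonempty C := ⟨⟨J v₀, subset_closure ⟨v₀, hv₀, rfl⟩⟩⟩
  let d := TopologicalSpace.denseSeq X
  let F : ℕ → Set C := fun j => (Subtype.val) ⁻¹' (J '' Metric.closedBall (d j) (1 / 8))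
  have hF : ∀ j, IsClosed (F j) := fun j => (hball _ _).isClosed.preimage continuous_subtype_val
  have hU : ⋃ j, F j = univ := by
    refine eq_univ_of_forall fun c => ?_
    obtain ⟨x, hx⟩ := (toWeakSpace ℝ X).surjective c.1
    obtain ⟨j, hj⟩ := (TopologicalSpace.denseRange_denseSeq X).exists_dist_lt x
      (show (0 : ℝ) < 1 / 8 by norm_num)
    exact mem_iUnion.2 ⟨j, x, Metric.mem_closedBall.2 hj.le, hx⟩
  obtain ⟨j, ⟨c, hc⟩⟩ := nonempty_interior_of_iUnion_of_closed hF hU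
  obtain ⟨O', hO'F, hO', hcO'⟩ := mem_interior.1 hc
  obtain ⟨O, hO, rfl⟩ := isOpen_induced_iff.1 hO'
  -- a point of `V` in `O`
  have hcC : (c : WeakSpace ℝ X) ∈ closure (J '' V) := c.2
  obtain ⟨w, hwO, v, hv, rfl⟩ := mem_closure_iff.1 hcC O hO hcO'
  obtain ⟨u, huV, huv, hud⟩ := h v hv
  have key : ∀ x ∈ V, J x ∈ O → x ∈ Metric.closedBall (d j) (1 / 8) := by
    intro x hx hxO
    have : (⟨J x, subset_closure ⟨x, hx, rfl⟩⟩ : C) ∈ F j := hO'F hxO
    obtain ⟨y, hy, hyx⟩ := this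
    have : y = x := (toWeakSpace ℝ X).injective hyx
    exact this ▸ hy
  have hev : ∀ᶠ n in atTop, J (u n) ∈ O :=
    (Pcp.wtendsto_toWeakSpace huv) (hO.mem_nhds hwO)
  obtain ⟨n, hn⟩ := hev.exists
  have h1 := Metric.mem_closedBall.1 (key _ (huV n) hn)
  have h2 := Metric.mem_closedBall.1 (key v hv hwO)
  have h3 : dist (u n) v ≤ 1 / 8 + 1 / 8 :=
    (dist_triangle_right _ _ _).trans (add_le_add h1 h2)
  have h4 := hud n
  rw [← dist_eq_norm] at h4
  linarith

end Crest.Agent.R108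
end

-- ▼ part R108/Unif
section

/-!
# R108 (S0142): D1-D5
-/

set_option autoImplicit false
set_option linter.unusedSectionVars false

open Filter Topology Set

namespace Crest.Agent.R108

universe u

variable {Y : Type u} [NormedAddCommGroup Y] [NormedSpace ℝ Y] [CompleteSpace Y]

namespace Unif

theorem sum_w (n : ℕ) : ∑ k ∈ Finset.range n, (1 / 2 : ℝ) ^ (k + 1) + (1 / 2) ^ n = 1 := by
  induction n with
  | zero => simp
  | succ n ih =>
    rw [Finset.sum_range_succ, pow_succ]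
    linarith

theorem hasSum_w : HasSum (fun k : ℕ => (1 / 2 : ℝ) ^ (k + 1)) 1 := by
  have h := (hasSum_geometric_two).mul_left (1 / 2 : ℝ)
  have h1 : (fun k : ℕ => (1 / 2 : ℝ) * (1 / 2) ^ k) = fun k : ℕ => (1 / 2 : ℝ) ^ (k + 1) := by
    funext k
    rw [pow_succ, mul_comm]
  rw [h1] at h
  norm_num at h ⊢
  exact h

theorem norm_le (D : Data Y) (k : ℕ) : ‖D.d k‖ ≤ ‖D.d 0‖ + 1 := by
  have h := D.diam_le _ (D.hd k) _ (D.hd 0)
  have h2 : ‖D.d k‖ ≤ ‖D.d k - D.d 0‖ + ‖D.d 0‖ := by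
    simpa using norm_add_le (D.d k - D.d 0) (D.d 0)
  linarith

theorem summable_w : Summable (fun k : ℕ => (1 / 2 : ℝ) ^ (k + 1)) := hasSum_w.summable

theorem summable_d (D : Data Y) : Summable (fun k : ℕ => ((1 / 2 : ℝ) ^ (k + 1)) • D.d k) := by
  refine Summable.of_norm_bounded (g := fun k : ℕ => (1 / 2 : ℝ) ^ (k + 1) * (‖D.d 0‖ + 1))
    (summable_w.mul_right _) fun k => ?_
  rw [norm_smul, Real.norm_of_nonneg (by positivity)]
  exact mul_le_mul_of_nonneg_left (norm_le D k) (by positivity)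

theorem hasSum_qb (D : Data Y) : HasSum (fun k : ℕ => ((1 / 2 : ℝ) ^ (k + 1)) • D.d k) D.qb :=
  (summable_d D).hasSum

theorem partial_mem (D : Data Y) (n : ℕ) :
    ∑ k ∈ Finset.range n, ((1 / 2 : ℝ) ^ (k + 1)) • D.d k + ((1 / 2 : ℝ) ^ n) • D.d 0 ∈ D.K := by
  have h := D.convex.sum_mem (t := Finset.range (n + 1))
    (w := fun k => if k = n then (1 / 2 : ℝ) ^ n else (1 / 2 : ℝ) ^ (k + 1))
    (z := fun k => if k = n then D.d 0 else D.d k) (fun k _ => by split_ifs <;> positivity)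
    (by
      rw [Finset.sum_range_succ, if_pos rfl]
      refine Eq.trans ?_ (sum_w n)
      refine congrArg (· + (1 / 2 : ℝ) ^ n) ?_
      refine Finset.sum_congr rfl fun k hk => ?_
      rw [if_neg (Finset.mem_range.1 hk).ne]) (fun k _ => by
      split_ifs
      · exact D.hd 0
      · exact D.hd k)
  rw [Finset.sum_range_succ, if_pos rfl, if_pos rfl] at h
  convert h using 2
  refine Finset.sum_congr rfl fun k hk => ?_
  rw [if_neg (Finset.mem_range.1 hk).ne, if_neg (Finset.mem_range.1 hk).ne]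

/-- `k (x - qb)` as a weighted average of the `k (x - d j)`. -/
theorem hasSum_k (D : Data Y) (k : Y →L[ℝ] ℝ) (x : Y) :
    HasSum (fun j : ℕ => (1 / 2 : ℝ) ^ (j + 1) * (1 - k (x - D.d j))) (1 - k (x - D.qb)) := by
  have h1 := (hasSum_w).mul_right (1 - k x)
  have h2 := (hasSum_qb D).mapL k
  have h3 := h1.add h2
  have e1 : 1 * (1 - k x) + k D.qb = 1 - k (x - D.qb) := by
    rw [map_sub]
    ring
  rw [e1] at h3
  have e2 : (fun j : ℕ => (1 / 2 : ℝ) ^ (j + 1) * (1 - k (x - D.d j))) =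
      fun b : ℕ => (1 / 2 : ℝ) ^ (b + 1) * (1 - k x) + k ((1 / 2 : ℝ) ^ (b + 1) • D.d b) := by
    funext j
    rw [map_smul, smul_eq_mul, map_sub]
    ring
  rw [e2]
  exact h3

/-- each single term is controlled -/
theorem single (D : Data Y) (k : Y →L[ℝ] ℝ) (hk : ‖k‖ ≤ 1) (x : Y) (hx : x ∈ D.K) (i : ℕ) :
    (1 / 2 : ℝ) ^ (i + 1) * (1 - k (x - D.d i)) ≤ 1 - k (x - D.qb) := by
  have hnn : ∀ j, 0 ≤ (1 / 2 : ℝ) ^ (j + 1) * (1 - k (x - D.d j)) := by
    intro j
    refine mul_nonneg (by positivity) ?_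
    have h1 : k (x - D.d j) ≤ ‖k (x - D.d j)‖ := Real.le_norm_self _
    have h2 := k.le_opNorm (x - D.d j)
    have h3 := D.diam_le x hx _ (D.hd j)
    have h4 : ‖k‖ * ‖x - D.d j‖ ≤ 1 * 1 := mul_le_mul hk h3 (norm_nonneg _) zero_le_one
    linarith
  exact le_hasSum (hasSum_k D k x) i fun j _ => hnn j

end Unif

open Unif

/-- D1. -/
theorem qb_mem (D : Data Y) : D.qb ∈ D.K := by
  have h1 := (hasSum_qb D).tendsto_sum_nat
  have h2 : Tendsto (fun n : ℕ => ((1 / 2 : ℝ) ^ n) • D.d 0) atTop (𝓝 ((0 : ℝ) • D.d 0)) :=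
    (tendsto_pow_atTop_nhds_zero_of_lt_one (by norm_num) (by norm_num)).smul_const _
  have h3 := h1.add h2
  rw [zero_smul, add_zero] at h3
  exact D.closed.mem_of_tendsto h3 (Eventually.of_forall fun n => partial_mem D n)

/-- D2. Lemma U. -/
theorem lemU (D : Data Y) (C : Set Y) (hC : IsCompact C) (hCK : C ⊆ D.K) (ε : ℝ) (hε : 0 < ε) :
    ∃ η : ℝ, 0 < η ∧ ∀ (k : Y →L[ℝ] ℝ), ‖k‖ ≤ 1 → ∀ x ∈ D.K, 1 - η < k (x - D.qb) →
      ∀ q ∈ C, 1 - ε < k (x - q) := by
  obtain ⟨t, ht⟩ := hC.elim_finite_subcover (fun i : ℕ => Metric.ball (D.d i) (ε / 2))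
    (fun i => Metric.isOpen_ball) (by
      intro q hq
      have h1 := D.hdense (hCK hq)
      rw [Metric.mem_closure_iff] at h1
      obtain ⟨_, ⟨i, rfl⟩, h2⟩ := h1 (ε / 2) (by linarith)
      exact mem_iUnion.2 ⟨i, h2⟩)
  refine ⟨(1 / 2 : ℝ) ^ (t.sup id + 1) * (ε / 2), by positivity, ?_⟩
  intro k hk x hx h q hq
  obtain ⟨i, hi⟩ := mem_iUnion.1 (ht hq)
  obtain ⟨hit, hi2⟩ := mem_iUnion.1 hi
  have hle : i ≤ t.sup id := Finset.le_sup (f := id) hit
  have h1 := single D k hk x hx i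
  have h2 : (1 / 2 : ℝ) ^ (t.sup id + 1) ≤ (1 / 2 : ℝ) ^ (i + 1) :=
    pow_le_pow_of_le_one (by norm_num) (by norm_num) (by omega)
  have h3 : (1 / 2 : ℝ) ^ (i + 1) * (1 - k (x - D.d i)) < (1 / 2 : ℝ) ^ (i + 1) * (ε / 2) := by
    have h4 : (1 / 2 : ℝ) ^ (t.sup id + 1) * (ε / 2) ≤ (1 / 2 : ℝ) ^ (i + 1) * (ε / 2) :=
      mul_le_mul_of_nonneg_right h2 (by linarith)
    linarith
  have h5 : 1 - k (x - D.d i) < ε / 2 := lt_of_mul_lt_mul_left h3 (by positivity)
  have h6 : k (x - q) = k (x - D.d i) - k (q - D.d i) := by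
    rw [← map_sub]
    congr 1
    abel
  have h7 : k (q - D.d i) < ε / 2 := by
    calc k (q - D.d i) ≤ ‖k (q - D.d i)‖ := Real.le_norm_self _
      _ ≤ ‖k‖ * ‖q - D.d i‖ := k.le_opNorm _
      _ ≤ 1 * ‖q - D.d i‖ := mul_le_mul_of_nonneg_right hk (norm_nonneg _)
      _ = dist q (D.d i) := by rw [one_mul, dist_eq_norm]
      _ < ε / 2 := hi2
  rw [h6]
  linarith

/-- D3. -/
theorem exists_norming (D : Data Y) : ∃ g : ℕ → (Y →L[ℝ] ℝ), Norming D g := by
  choose g hg using fun n : ℕ => exists_dual_vector'' ℝ (D.f n - D.qb)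
  exact ⟨g, fun n => ⟨(hg n).1, (hg n).2⟩⟩

/-- D4. -/
theorem inA_id (D : Data Y) (g : ℕ → (Y →L[ℝ] ℝ)) (hg : Norming D g) :
    InA D g (ContinuousLinearMap.id ℝ Y) := by
  refine ⟨ContinuousLinearMap.norm_id_le, fun η hη n₀ => ?_⟩
  obtain ⟨n, hn, h⟩ := D.far D.qb (qb_mem D) η hη n₀
  refine ⟨n, hn, ?_⟩
  rw [ContinuousLinearMap.id_apply, (hg n).2]
  exact h

/-- D5. along indices where `g n (A (f n - qb))` is close to one, `g n (A y)` is small. -/
theorem small_of_near (D : Data Y) (y : Y) (ε : ℝ) (hε : 0 < ε) :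
    ∃ η : ℝ, 0 < η ∧ ∀ (k : Y →L[ℝ] ℝ), ‖k‖ ≤ 1 → ∀ x ∈ D.K, 1 - η < k (x - D.qb) →
      |k y| < ε := by
  -- first on the span
  have key : ∀ y ∈ Submodule.span ℝ {v : Y | ∃ x ∈ D.K, ∃ y ∈ D.K, v = x - y},
      ∀ ε : ℝ, 0 < ε → ∃ η : ℝ, 0 < η ∧ ∀ (k : Y →L[ℝ] ℝ), ‖k‖ ≤ 1 → ∀ x ∈ D.K,
        1 - η < k (x - D.qb) → |k y| < ε := by
    intro y hy
    induction hy using Submodule.span_induction with
    | mem v hv =>
      obtain ⟨a, ha, b, hb, rfl⟩ := hv
      intro ε hε
      obtain ⟨η, hη, h⟩ := lemU D {a, b} (by simp [Set.Finite.isCompact]) (by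
        rintro q (rfl | rfl) <;> assumption) ε hε
      refine ⟨η, hη, fun k hk x hx hx2 => ?_⟩
      have h1 := h k hk x hx hx2 a (by simp)
      have h2 := h k hk x hx hx2 b (by simp)
      have hle : ∀ q ∈ D.K, k (x - q) ≤ 1 := by
        intro q hq
        have h1 : k (x - q) ≤ ‖k (x - q)‖ := Real.le_norm_self _
        have h2 := k.le_opNorm (x - q)
        have h3 := D.diam_le x hx q hq
        have h4 : ‖k‖ * ‖x - q‖ ≤ 1 * 1 := mul_le_mul hk h3 (norm_nonneg _) zero_le_one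
        linarith
      have h3 := hle a ha
      have h4 := hle b hb
      rw [map_sub] at h1 h2 h3 h4 ⊢
      rw [abs_lt]
      constructor <;> linarith
    | zero =>
      intro ε hε
      exact ⟨1, one_pos, fun k _ x _ _ => by simpa using hε⟩
    | add a b _ _ iha ihb =>
      intro ε hε
      obtain ⟨η₁, hη₁, h₁⟩ := iha (ε / 2) (by linarith)
      obtain ⟨η₂, hη₂, h₂⟩ := ihb (ε / 2) (by linarith)
      refine ⟨min η₁ η₂, lt_min hη₁ hη₂, fun k hk x hx hx2 => ?_⟩
      have e1 := h₁ k hk x hx (by linarith [min_le_left η₁ η₂])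
      have e2 := h₂ k hk x hx (by linarith [min_le_right η₁ η₂])
      rw [map_add]
      linarith [abs_add_le (k a) (k b)]
    | smul c a _ ih =>
      intro ε hε
      obtain ⟨η, hη, h⟩ := ih (ε / (|c| + 1)) (by positivity)
      refine ⟨η, hη, fun k hk x hx hx2 => ?_⟩
      have e1 := h k hk x hx hx2
      rw [map_smul, smul_eq_mul, abs_mul]
      have h3 : (|c| + 1) * |k a| < ε := by
        rw [lt_div_iff₀ (by positivity)] at e1
        linarith
      nlinarith [abs_nonneg (k a), abs_nonneg c]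
  have hy : y ∈ closure (Submodule.span ℝ {v : Y | ∃ x ∈ D.K, ∃ y ∈ D.K, v = x - y} : Set Y) := by
    rw [← Submodule.topologicalClosure_coe, D.dense_span]
    trivial
  rw [Metric.mem_closure_iff] at hy
  obtain ⟨y', hy', hd⟩ := hy (ε / 2) (by linarith)
  obtain ⟨η, hη, h⟩ := key y' hy' (ε / 2) (by linarith)
  refine ⟨η, hη, fun k hk x hx hx2 => ?_⟩
  have h1 := h k hk x hx hx2
  have h2 : |k (y - y')| < ε / 2 := by
    calc |k (y - y')| = ‖k (y - y')‖ := (Real.norm_eq_abs _).symm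
      _ ≤ ‖k‖ * ‖y - y'‖ := k.le_opNorm _
      _ ≤ 1 * ‖y - y'‖ := mul_le_mul_of_nonneg_right hk (norm_nonneg _)
      _ = dist y y' := by rw [one_mul, dist_eq_norm]
      _ < ε / 2 := hd
  have h3 : k y = k y' + k (y - y') := by
    rw [map_sub]
    ring
  rw [h3]
  linarith [abs_add_le (k y') (k (y - y'))]

end Crest.Agent.R108
end

-- ▼ part R108/LemHBody
section

/-! Row 108 (S0142): Lemma H (heredity).  helper261 -/

set_option autoImplicit false

open Filter Topology Set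

namespace Crest.Agent.R108

namespace LemH

universe u

variable {X : Type u} [NormedAddCommGroup X] [NormedSpace ℝ X]

/-- strong recursion choice -/
theorem exists_seq_strong {α : Type u} (Q : ∀ r : ℕ, (Fin r → α) → α → Prop)
    (h : ∀ r prev, ∃ a, Q r prev a) : ∃ s : ℕ → α, ∀ r, Q r (fun i => s i) (s r) := by
  classical
  choose F hF using h
  let s : ℕ → α := WellFounded.fix (C := fun _ => α) Nat.lt_wfRel.wf
    (fun r ih => F r (fun i => ih i i.2))
  refine ⟨s, fun r => ?_⟩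
  have : s r = F r (fun i => s i) := by
    simp only [s]
    rw [WellFounded.fix_eq]
  rw [this]
  exact hF r _

/-- super-exponentially decreasing scales -/
noncomputable def sc (k : ℕ) : ℝ := (1 / 2 : ℝ) ^ (k ^ 2)

theorem sc_pos (k : ℕ) : 0 < sc k := by unfold sc; positivity

theorem sc_le (k j : ℕ) : sc (k + 1 + j) ≤ sc k * (1 / 4) ^ k * (1 / 2) * (1 / 2) ^ j := by
  unfold sc
  have h1 : (1 / 4 : ℝ) ^ k = (1 / 2 : ℝ) ^ (2 * k) := by
    rw [pow_mul]; norm_num
  rw [h1, ← pow_add]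
  have h2 : (1 / 2 : ℝ) ^ (k ^ 2 + 2 * k) * (1 / 2) * (1 / 2) ^ j
      = (1 / 2 : ℝ) ^ (k ^ 2 + 2 * k + 1 + j) := by
    rw [pow_add _ (k ^ 2 + 2 * k + 1) j, pow_add _ (k ^ 2 + 2 * k) 1, pow_one]
  rw [h2]
  apply pow_le_pow_of_le_one (by norm_num) (by norm_num)
  nlinarith [Nat.zero_le (k * j), Nat.zero_le (j ^ 2), Nat.zero_le j]

theorem sc_summable : Summable sc := by
  rw [← summable_nat_add_iff 1]
  refine Summable.of_nonneg_of_le (fun j => (sc_pos _).le) (fun j => ?_)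
    (summable_geometric_of_lt_one (by norm_num : (0 : ℝ) ≤ 1 / 2) (by norm_num))
  have := sc_le 0 j
  have h0 : sc 0 = 1 := by simp [sc]
  rw [h0] at this
  have e : 0 + 1 + j = j + 1 := by ring
  rw [e] at this
  have hp : (0 : ℝ) ≤ (1 / 2) ^ j := by positivity
  calc sc (j + 1) ≤ 1 * (1 / 4) ^ 0 * (1 / 2) * (1 / 2) ^ j := this
    _ ≤ (1 / 2) ^ j := by simp only [pow_zero]; linarith

theorem sc_tail (k : ℕ) : ∑' j, sc (k + 1 + j) ≤ sc k / (k + 1) := by
  have hs : Summable fun j : ℕ => sc k * (1 / 4) ^ k * (1 / 2) * (1 / 2 : ℝ) ^ j :=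
    (summable_geometric_of_lt_one (by norm_num) (by norm_num)).mul_left _
  have hs' : Summable fun j : ℕ => sc (k + 1 + j) := by
    have := (summable_nat_add_iff (k + 1)).2 sc_summable
    simpa [add_comm, add_left_comm, add_assoc] using this
  have h1 : ∑' j, sc (k + 1 + j) ≤ ∑' j : ℕ, sc k * (1 / 4) ^ k * (1 / 2) * (1 / 2 : ℝ) ^ j :=
    Summable.tsum_le_tsum (sc_le k) hs' hs
  rw [tsum_mul_left, tsum_geometric_two] at h1
  have h2 : ((k : ℝ) + 1) * (1 / 4) ^ k ≤ 1 := by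
    have : ((k : ℝ) + 1) ≤ 4 ^ k := by
      have := one_add_mul_le_pow (a := (3 : ℝ)) (by norm_num) k
      have hk : (0 : ℝ) ≤ k := Nat.cast_nonneg k
      norm_num at this
      linarith
    have h4 : (0 : ℝ) < 4 ^ k := by positivity
    rw [one_div, inv_pow]
    rw [mul_inv_le_iff₀ h4]
    linarith
  have hk : (0 : ℝ) < (k : ℝ) + 1 := by positivity
  refine h1.trans ?_
  rw [le_div_iff₀ hk]
  have := sc_pos k
  nlinarith

/-- scales: `1-ε` for the direction `x₀`, then `ε * sc k` -/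
noncomputable def scl (ε : ℝ) (k : ℕ) : ℝ := if k = 0 then 1 - ε else ε * sc k

theorem scl_zero (ε : ℝ) : scl ε 0 = 1 - ε := by simp [scl]

theorem scl_succ (ε : ℝ) (k : ℕ) : scl ε (k + 1) = ε * sc (k + 1) := by simp [scl]

theorem scl_pos {ε : ℝ} (h0 : 0 < ε) (h1 : ε < 1) (k : ℕ) : 0 < scl ε k := by
  cases k with
  | zero => rw [scl_zero]; linarith
  | succ k => rw [scl_succ]; exact mul_pos h0 (sc_pos _)


theorem scl_dyadic (s : ℕ) (k : ℕ) :
    ∃ a t : ℕ, scl ((1 / 2 : ℝ) ^ s) k = (a : ℝ) / 2 ^ t := by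
  cases k with
  | zero =>
    refine ⟨2 ^ s - 1, s, ?_⟩
    have h1 : 1 ≤ 2 ^ s := Nat.one_le_two_pow
    have h2 : (0 : ℝ) < 2 ^ s := by positivity
    rw [scl_zero, Nat.cast_sub h1]
    push_cast
    rw [one_div, inv_pow]
    field_simp
  | succ k =>
    refine ⟨1, s + (k + 1) ^ 2, ?_⟩
    rw [scl_succ, sc, ← pow_add, one_div, inv_pow]
    simp

/-- finite tail estimate of the scales -/
theorem scl_tail {ε : ℝ} (h0 : 0 < ε) (k : ℕ) (hk : 1 ≤ k) (n : ℕ) :
    ∑ j ∈ Finset.range n, scl ε (k + 1 + j) ≤ scl ε k / (k + 1) := by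
  obtain ⟨k', rfl⟩ : ∃ k', k = k' + 1 := ⟨k - 1, by omega⟩
  have e : ∀ j, scl ε (k' + 1 + 1 + j) = ε * sc (k' + 1 + 1 + j) := by
    intro j
    have : k' + 1 + 1 + j = (k' + 1 + j) + 1 := by ring
    rw [this, scl_succ]
  simp only [e]
  rw [← Finset.mul_sum, scl_succ]
  have hs' : Summable fun j : ℕ => sc (k' + 1 + 1 + j) := by
    have := (summable_nat_add_iff (k' + 1 + 1)).2 sc_summable
    simpa [add_comm, add_left_comm, add_assoc] using this
  have := (hs'.sum_le_tsum (Finset.range n) (fun j _ => (sc_pos _).le)).trans (sc_tail (k' + 1))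
  rw [mul_div_assoc]
  exact mul_le_mul_of_nonneg_left this h0.le

theorem scl_tail_zero {ε : ℝ} (h0 : 0 < ε) (n : ℕ) : ∑ j ∈ Finset.range n, scl ε (j + 1) ≤ ε := by
  simp only [scl_succ]
  rw [← Finset.mul_sum]
  have := sc_tail 0
  have h0' : sc 0 = 1 := by simp [sc]
  rw [h0'] at this
  have e : ∀ j, sc (0 + 1 + j) = sc (j + 1) := fun j => by congr 1; ring
  simp only [e] at this
  have h1 : ∑' j, sc (j + 1) ≤ 1 := by simpa using this
  have h2 := (((summable_nat_add_iff 1).2 sc_summable).sum_le_tsum (Finset.range n)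
    (fun j _ => (sc_pos _).le)).trans h1
  nlinarith

theorem scl_sum_le {ε : ℝ} (h0 : 0 < ε) (n : ℕ) :
    ∑ j ∈ Finset.range n, scl ε j ≤ 1 := by
  cases n with
  | zero => simp
  | succ n =>
    rw [Finset.sum_range_succ', scl_zero]
    have := scl_tail_zero h0 n
    linarith

/-- finite convex combinations based at `p` -/
theorem mem_finset {K : Set X} (hK : Convex ℝ K) {p : X} (hp : p ∈ K) (x : ℕ → X)
    (hx : ∀ j, x j ∈ K) (s : Finset ℕ) (a : ℕ → ℝ) (ha : ∀ j ∈ s, 0 ≤ a j)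
    (hs : ∑ j ∈ s, a j ≤ 1) : p + ∑ j ∈ s, a j • (x j - p) ∈ K := by
  by_cases ht : ∑ j ∈ s, a j = 0
  · have h0 : ∀ j ∈ s, a j = 0 := (Finset.sum_eq_zero_iff_of_nonneg ha).1 ht
    have : ∑ j ∈ s, a j • (x j - p) = 0 :=
      Finset.sum_eq_zero fun j hj => by rw [h0 j hj, zero_smul]
    rw [this, add_zero]; exact hp
  · set t := ∑ j ∈ s, a j with htdef
    have ht0 : 0 ≤ t := Finset.sum_nonneg ha
    have htpos : 0 < t := lt_of_le_of_ne ht0 (Ne.symm ht)
    have hy : ∑ j ∈ s, (a j / t) • x j ∈ K := by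
      apply hK.sum_mem (fun j hj => div_nonneg (ha j hj) ht0)
      · rw [← Finset.sum_div, ← htdef, div_self ht]
      · intro j _; exact hx j
    have h1 : p + ∑ j ∈ s, a j • (x j - p) = (1 - t) • p + t • ∑ j ∈ s, (a j / t) • x j := by
      have : ∑ j ∈ s, a j • (x j - p) = ∑ j ∈ s, a j • x j - t • p := by
        rw [htdef, Finset.sum_smul, ← Finset.sum_sub_distrib]
        exact Finset.sum_congr rfl fun j _ => smul_sub _ _ _
      rw [this, Finset.smul_sum]
      have : ∀ j ∈ s, t • (a j / t) • x j = a j • x j := by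
        intro j _
        rw [smul_smul, mul_div_cancel₀ _ ht]
      rw [Finset.sum_congr rfl this, sub_smul, one_smul]
      abel
    rw [h1]
    exact hK hp hy (by linarith) ht0 (by ring)

/-- splitting a sum at the index `k` -/
theorem sum_split (x : ℕ → X) (p : X) (b : ℕ → ℝ) (k N : ℕ) :
    ∑ j ∈ Finset.range (k + 1 + N), b j • (x j - p)
      = ∑ j ∈ Finset.range k, b j • (x j - p) + b k • (x k - p)
        + ∑ i ∈ Finset.range N, b (k + 1 + i) • (x (k + 1 + i) - p) := by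
  rw [Finset.sum_range_add, Finset.sum_range_succ]

theorem mem_split {K : Set X} (hK : Convex ℝ K) {p : X} (hp : p ∈ K) (x : ℕ → X)
    (hx : ∀ j, x j ∈ K) {ε : ℕ → ℝ} (hsum : ∀ n, ∑ j ∈ Finset.range n, ε j ≤ 1)
    (b : ℕ → ℝ) (hb0 : ∀ j, 0 ≤ b j) (hb1 : ∀ j, b j ≤ ε j) (k N : ℕ) (s : ℝ) (hs0 : 0 ≤ s)
    (hs1 : s ≤ ε k) :
    p + (∑ j ∈ Finset.range k, b j • (x j - p) + s • (x k - p)
        + ∑ i ∈ Finset.range N, b (k + 1 + i) • (x (k + 1 + i) - p)) ∈ K := by
  classical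
  set c : ℕ → ℝ := Function.update b k s with hc
  have hc0 : ∀ j, 0 ≤ c j := by
    intro j
    by_cases h : j = k
    · subst h; simp [hc, hs0]
    · simp [hc, Function.update_of_ne h, hb0 j]
  have hc1 : ∀ j, c j ≤ ε j := by
    intro j
    by_cases h : j = k
    · subst h; simp [hc, hs1]
    · simp [hc, Function.update_of_ne h, hb1 j]
  have h1 := mem_finset hK hp x hx (Finset.range (k + 1 + N)) c (fun j _ => hc0 j)
    ((Finset.sum_le_sum fun j _ => hc1 j).trans (hsum _))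
  rw [sum_split] at h1
  have e1 : ∑ j ∈ Finset.range k, c j • (x j - p) = ∑ j ∈ Finset.range k, b j • (x j - p) := by
    apply Finset.sum_congr rfl
    intro j hj
    have : j ≠ k := (Finset.mem_range.1 hj).ne
    rw [hc, Function.update_of_ne this]
  have e2 : c k = s := by simp [hc]
  have e3 : ∑ i ∈ Finset.range N, c (k + 1 + i) • (x (k + 1 + i) - p)
      = ∑ i ∈ Finset.range N, b (k + 1 + i) • (x (k + 1 + i) - p) := by
    apply Finset.sum_congr rfl
    intro i _
    have : k + 1 + i ≠ k := by omega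
    rw [hc, Function.update_of_ne this]
  rw [e1, e2, e3] at h1
  exact h1

/-- norm bound of a finite sum -/
theorem norm_sum_le' {K : Set X} (hdiam : ∀ x ∈ K, ∀ y ∈ K, ‖x - y‖ ≤ 1) {p : X} (hp : p ∈ K)
    (x : ℕ → X) (hx : ∀ j, x j ∈ K) (ε : ℕ → ℝ) (b : ℕ → ℝ) (hb0 : ∀ j, 0 ≤ b j)
    (hb1 : ∀ j, b j ≤ ε j) (s : Finset ℕ) (σ : ℕ → ℕ) :
    ‖∑ i ∈ s, b (σ i) • (x (σ i) - p)‖ ≤ ∑ i ∈ s, ε (σ i) := by
  refine (norm_sum_le _ _).trans (Finset.sum_le_sum fun i _ => ?_)
  rw [norm_smul, Real.norm_of_nonneg (hb0 _)]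
  have h1 := hdiam _ (hx (σ i)) _ hp
  have h2 := hb0 (σ i)
  have h3 := hb1 (σ i)
  nlinarith

/-- the distance from `y` to `h + e (y - p)`. -/
theorem dist_shift {K : Set X} (hdiam : ∀ x ∈ K, ∀ y ∈ K, ‖x - y‖ ≤ 1) {p : X} (hp : p ∈ K)
    (x : ℕ → X) (hx : ∀ j, x j ∈ K) (b : ℕ → ℝ) (hb0 : ∀ j, 0 ≤ b j) (k : ℕ) (e : ℝ) 
    (hbe : ∑ j ∈ Finset.range k, b j + e ≤ 1) (y : X) (hy : y ∈ K) :
    ‖y - (p + ∑ j ∈ Finset.range k, b j • (x j - p) + e • (y - p))‖ ≤ 1 - e := by
  have h1 : y - (p + ∑ j ∈ Finset.range k, b j • (x j - p) + e • (y - p))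
      = ∑ j ∈ Finset.range k, b j • (y - x j)
        + (1 - e - ∑ j ∈ Finset.range k, b j) • (y - p) := by
    have : ∑ j ∈ Finset.range k, b j • (y - x j)
        = (∑ j ∈ Finset.range k, b j) • (y - p) - ∑ j ∈ Finset.range k, b j • (x j - p) := by
      rw [Finset.sum_smul, ← Finset.sum_sub_distrib]
      apply Finset.sum_congr rfl
      intro j _
      rw [← smul_sub]
      congr 1
      abel
    rw [this]
    module
  rw [h1]
  have h2 : ‖∑ j ∈ Finset.range k, b j • (y - x j)‖ ≤ ∑ j ∈ Finset.range k, b j := by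
    refine (norm_sum_le _ _).trans (Finset.sum_le_sum fun j _ => ?_)
    rw [norm_smul, Real.norm_of_nonneg (hb0 _)]
    have := hdiam _ hy _ (hx j)
    have h2 := hb0 j
    nlinarith
  have h3 : ‖(1 - e - ∑ j ∈ Finset.range k, b j) • (y - p)‖
      ≤ 1 - e - ∑ j ∈ Finset.range k, b j := by
    have h0 : 0 ≤ 1 - e - ∑ j ∈ Finset.range k, b j := by linarith
    rw [norm_smul, Real.norm_of_nonneg h0]
    have := hdiam _ hy _ hp
    nlinarith
  calc _ ≤ _ := norm_add_le _ _
    _ ≤ _ := add_le_add h2 h3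
    _ = 1 - e := by ring


/-- algebraic core of the estimate -/
theorem arith_core (e r a b c d1 d2 : ℝ) (hb : b ≤ e / r + (1 - e))
    (ha : 1 - e / r ≤ a) (hc : c = a - b) (hd1 : |d1| ≤ e / r) (hd2 : |d2| ≤ e / r) :
    e * (1 - 4 / r) ≤ c + d1 - d2 := by
  have h1 := (abs_le.1 hd1).1
  have h2 := (abs_le.1 hd2).2
  have : e * (1 - 4 / r) = e - 4 * (e / r) := by ring
  rw [this]; linarith

variable [CompleteSpace X]

/-- the estimate for a deep direction -/
theorem deep_estimate (D : Data X) (z : X → X) (hzK : MapsTo z D.K D.K)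
    (hzne : ∀ a ∈ D.K, ∀ b ∈ D.K, ‖z a - z b‖ ≤ ‖a - b‖) {ε : ℝ} (hε : 0 < ε) (hε1 : ε < 1)
    (x : ℕ → X) (hx : ∀ j, x j ∈ D.K) (φ : X →L[ℝ] ℝ) (hφ : ‖φ‖ ≤ 1) (k : ℕ) (hk : 1 ≤ k)
    (r : ℝ) (hr : 0 < r) (hrk : r ≤ k + 1)
    (hfix : ‖z (x k) - x k‖ ≤ scl ε k / r)
    (hfar : ∀ b : ℕ → ℝ, (∀ j, 0 ≤ b j) → (∀ j, b j ≤ scl ε j) →
      1 - scl ε k / r < φ (x k - z (D.p + ∑ i : Fin k, b i • (x i - D.p)))) :
    ∀ w ∈ Quot z D.p x (scl ε) k, 1 - 4 / r ≤ φ w := by
  rintro w ⟨h, ⟨n, a, ha0, ha1, hak, rfl⟩, rfl⟩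
  set e := scl ε k with he
  have hepos : 0 < e := scl_pos hε hε1 k
  -- extend by zero
  set b : ℕ → ℝ := fun j => if j < n then a j else 0 with hb
  have hb0 : ∀ j, 0 ≤ b j := by
    intro j; simp only [hb]; split_ifs
    · exact ha0 j
    · exact le_rfl
  have hb1 : ∀ j, b j ≤ scl ε j := by
    intro j; simp only [hb]; split_ifs
    · exact ha1 j
    · exact (scl_pos hε hε1 j).le
  have hbk : b k = 0 := by
    simp only [hb]; split_ifs
    · exact hak
    · rfl
  have hsumeq : ∑ j ∈ Finset.range n, a j • (x j - D.p)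
      = ∑ j ∈ Finset.range (k + 1 + n), b j • (x j - D.p) := by
    have h1 : ∑ j ∈ Finset.range n, a j • (x j - D.p)
        = ∑ j ∈ Finset.range n, b j • (x j - D.p) := by
      apply Finset.sum_congr rfl
      intro j hj
      simp only [hb, Finset.mem_range.1 hj, if_true]
    rw [h1]
    apply Finset.sum_subset
    · intro j hj
      rw [Finset.mem_range] at hj ⊢
      omega
    · intro j _ hj
      rw [Finset.mem_range] at hj
      simp only [hb, hj, if_false, zero_smul]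
  set P1 := ∑ j ∈ Finset.range k, b j • (x j - D.p) with hP1
  set Tl := ∑ i ∈ Finset.range n, b (k + 1 + i) • (x (k + 1 + i) - D.p) with hTl
  have hsplit : ∑ j ∈ Finset.range n, a j • (x j - D.p) = P1 + Tl := by
    rw [hsumeq, sum_split, hbk, zero_smul, add_zero]
  have hTlnorm : ‖Tl‖ ≤ e / r := by
    refine (norm_sum_le' D.diam_le D.hp x hx (scl ε) b hb0 hb1 _ (fun i => k + 1 + i)).trans ?_
    refine (scl_tail hε k hk n).trans ?_
    exact div_le_div_of_nonneg_left hepos.le hr hrk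
  have hsum1 : ∀ n, ∑ j ∈ Finset.range n, scl ε j ≤ 1 := scl_sum_le hε
  have hm : ∀ N s, 0 ≤ s → s ≤ scl ε k → D.p + (P1 + s • (x k - D.p)
        + ∑ i ∈ Finset.range N, b (k + 1 + i) • (x (k + 1 + i) - D.p)) ∈ D.K :=
    fun N s h0 h1 => mem_split D.convex D.hp x hx hsum1 b hb0 hb1 k N s h0 h1
  -- the four points
  have m1 : D.p + P1 ∈ D.K := by
    have := hm 0 0 le_rfl hepos.le
    simpa using this
  have m2 : D.p + P1 + e • (x k - D.p) ∈ D.K := by
    have := hm 0 e hepos.le le_rfl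
    simpa [add_assoc] using this
  have m3 : D.p + (P1 + Tl) ∈ D.K := by
    have := hm n 0 le_rfl hepos.le
    simpa using this
  have m4 : D.p + (P1 + Tl) + e • (x k - D.p) ∈ D.K := by
    have := hm n e hepos.le le_rfl
    have e1 : D.p + (P1 + Tl) + e • (x k - D.p) = D.p + (P1 + e • (x k - D.p) + Tl) := by abel
    rw [e1]; exact this
  rw [hsplit]
  have hφb : ∀ y : X, |φ y| ≤ ‖y‖ := fun y =>
    ((φ.le_opNorm y).trans (by nlinarith [norm_nonneg y]))
  have hA : 1 - e / r ≤ φ (x k - z (D.p + P1)) := by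
    have := hfar b hb0 hb1
    rw [Fin.sum_univ_eq_sum_range (fun j => b j • (x j - D.p)) k] at this
    exact this.le
  have hB : φ (x k - z (D.p + P1 + e • (x k - D.p))) ≤ e / r + (1 - e) := by
    have h1 : ‖x k - z (D.p + P1 + e • (x k - D.p))‖ ≤ e / r + (1 - e) := by
      have h2 : x k - z (D.p + P1 + e • (x k - D.p))
          = -(z (x k) - x k) + (z (x k) - z (D.p + P1 + e • (x k - D.p))) := by abel
      rw [h2]
      refine (norm_add_le _ _).trans (add_le_add ?_ ?_)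
      · rw [norm_neg]; exact hfix
      · refine (hzne _ (hx k) _ m2).trans ?_
        apply dist_shift D.diam_le D.hp x hx b hb0 k e ?_ (x k) (hx k)
        have h3 : ∑ j ∈ Finset.range k, b j + e ≤ ∑ j ∈ Finset.range (k + 1), scl ε j := by
          rw [Finset.sum_range_succ]
          exact add_le_add (Finset.sum_le_sum fun j _ => hb1 j) le_rfl
        exact h3.trans (hsum1 _)
    exact (le_abs_self _).trans ((hφb _).trans h1)
  have hD1 : |φ (z (D.p + (P1 + Tl) + e • (x k - D.p)) - z (D.p + P1 + e • (x k - D.p)))|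
      ≤ e / r := by
    refine (hφb _).trans ((hzne _ m4 _ m2).trans ?_)
    have : D.p + (P1 + Tl) + e • (x k - D.p) - (D.p + P1 + e • (x k - D.p)) = Tl := by abel
    rw [this]; exact hTlnorm
  have hD2 : |φ (z (D.p + (P1 + Tl)) - z (D.p + P1))| ≤ e / r := by
    refine (hφb _).trans ((hzne _ m3 _ m1).trans ?_)
    have : D.p + (P1 + Tl) - (D.p + P1) = Tl := by abel
    rw [this]; exact hTlnorm
  have key := arith_core e r _ _ _ _ _ hB hA rfl hD1 hD2
  have heq : φ (x k - z (D.p + P1)) - φ (x k - z (D.p + P1 + e • (x k - D.p)))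
      + φ (z (D.p + (P1 + Tl) + e • (x k - D.p)) - z (D.p + P1 + e • (x k - D.p)))
      - φ (z (D.p + (P1 + Tl)) - z (D.p + P1))
      = φ (z (D.p + (P1 + Tl) + e • (x k - D.p)) - z (D.p + (P1 + Tl))) := by
    simp only [map_sub]; ring
  rw [heq] at key
  rw [map_smul, smul_eq_mul]
  rw [← div_eq_inv_mul, le_div_iff₀ hepos]
  linarith

/-- the chord estimate -/
theorem chord_estimate (D : Data X) (z : X → X) (hzK : MapsTo z D.K D.K)
    (hzne : ∀ a ∈ D.K, ∀ b ∈ D.K, ‖z a - z b‖ ≤ ‖a - b‖) {ε : ℝ} (hε : 0 < ε) (hε2 : ε ≤ 1 / 2)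
    (x : ℕ → X) (hx : ∀ j, x j ∈ D.K) :
    ∀ w ∈ Quot z D.p x (scl ε) 0, ‖w - (z (x 0) - z D.p)‖ ≤ 8 * ε := by
  rintro w ⟨h, ⟨n, a, ha0, ha1, hak, rfl⟩, rfl⟩
  have hε1 : ε < 1 := by linarith
  have he : scl ε 0 = 1 - ε := scl_zero ε
  set b : ℕ → ℝ := fun j => if j < n then a j else 0 with hb
  have hb0 : ∀ j, 0 ≤ b j := by
    intro j; simp only [hb]; split_ifs
    · exact ha0 j
    · exact le_rfl
  have hb1 : ∀ j, b j ≤ scl ε j := by
    intro j; simp only [hb]; split_ifs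
    · exact ha1 j
    · exact (scl_pos hε hε1 j).le
  have hbk : b 0 = 0 := by
    simp only [hb]; split_ifs
    · exact hak
    · rfl
  have hsumeq : ∑ j ∈ Finset.range n, a j • (x j - D.p)
      = ∑ j ∈ Finset.range (0 + 1 + n), b j • (x j - D.p) := by
    have h1 : ∑ j ∈ Finset.range n, a j • (x j - D.p)
        = ∑ j ∈ Finset.range n, b j • (x j - D.p) := by
      apply Finset.sum_congr rfl
      intro j hj
      simp only [hb, Finset.mem_range.1 hj, if_true]
    rw [h1]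
    apply Finset.sum_subset
    · intro j hj
      rw [Finset.mem_range] at hj ⊢
      omega
    · intro j _ hj
      rw [Finset.mem_range] at hj
      simp only [hb, hj, if_false, zero_smul]
  set Tl := ∑ i ∈ Finset.range n, b (0 + 1 + i) • (x (0 + 1 + i) - D.p) with hTl
  have hsplit : ∑ j ∈ Finset.range n, a j • (x j - D.p) = Tl := by
    rw [hsumeq, sum_split, hbk, zero_smul, add_zero, Finset.range_zero, Finset.sum_empty, zero_add]
  have hTlnorm : ‖Tl‖ ≤ ε := by
    refine (norm_sum_le' D.diam_le D.hp x hx (scl ε) b hb0 hb1 _ (fun i => 0 + 1 + i)).trans ?_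
    have := scl_tail_zero hε n
    have e1 : ∀ i, scl ε (0 + 1 + i) = scl ε (i + 1) := fun i => by congr 1; ring
    simp only [e1]
    exact this
  have hsum1 : ∀ n, ∑ j ∈ Finset.range n, scl ε j ≤ 1 := scl_sum_le hε
  have hm : ∀ N s, 0 ≤ s → s ≤ scl ε 0 → D.p + (∑ j ∈ Finset.range 0, b j • (x j - D.p)
        + s • (x 0 - D.p)
        + ∑ i ∈ Finset.range N, b (0 + 1 + i) • (x (0 + 1 + i) - D.p)) ∈ D.K :=
    fun N s h0 h1 => mem_split D.convex D.hp x hx hsum1 b hb0 hb1 0 N s h0 h1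
  have m3 : D.p + Tl ∈ D.K := by
    have := hm n 0 le_rfl (scl_pos hε hε1 0).le
    simpa using this
  have m4 : D.p + Tl + (1 - ε) • (x 0 - D.p) ∈ D.K := by
    have := hm n (1 - ε) (by linarith) (by rw [he])
    have e1 : D.p + Tl + (1 - ε) • (x 0 - D.p) = D.p + (∑ j ∈ Finset.range 0, b j • (x j - D.p)
        + (1 - ε) • (x 0 - D.p) + Tl) := by
      rw [Finset.range_zero, Finset.sum_empty]; abel
    rw [e1]; exact this
  rw [hsplit, he]
  set u := z (x 0) - z D.p with hu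
  have hu1 : ‖u‖ ≤ 1 := (hzne _ (hx 0) _ D.hp).trans (D.diam_le _ (hx 0) _ D.hp)
  set w := z (D.p + Tl + (1 - ε) • (x 0 - D.p)) - z (D.p + Tl) with hw
  have h1 : ‖z (D.p + Tl + (1 - ε) • (x 0 - D.p)) - z (x 0)‖ ≤ 2 * ε := by
    refine (hzne _ m4 _ (hx 0)).trans ?_
    have : D.p + Tl + (1 - ε) • (x 0 - D.p) - x 0 = Tl - ε • (x 0 - D.p) := by module
    rw [this]
    refine (norm_sub_le _ _).trans ?_
    rw [norm_smul, Real.norm_of_nonneg hε.le]
    have := D.diam_le _ (hx 0) _ D.hp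
    nlinarith
  have h2 : ‖z (D.p + Tl) - z D.p‖ ≤ ε := by
    refine (hzne _ m3 _ D.hp).trans ?_
    have : D.p + Tl - D.p = Tl := by abel
    rw [this]; exact hTlnorm
  have h3 : ‖w - u‖ ≤ 3 * ε := by
    have : w - u = (z (D.p + Tl + (1 - ε) • (x 0 - D.p)) - z (x 0)) - (z (D.p + Tl) - z D.p) := by
      rw [hw, hu]; abel
    rw [this]
    refine (norm_sub_le _ _).trans ?_
    linarith
  have hpos : 0 < 1 - ε := by linarith
  have h4 : (1 - ε)⁻¹ • w - u = (1 - ε)⁻¹ • ((w - u) + ε • u) := by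
    have : u = (1 - ε)⁻¹ • ((1 - ε) • u) := by
      rw [smul_smul, inv_mul_cancel₀ hpos.ne', one_smul]
    conv_lhs => rw [this]
    rw [← smul_sub]
    congr 1
    module
  rw [h4, norm_smul, norm_inv, Real.norm_of_nonneg hpos.le]
  have h5 : ‖(w - u) + ε • u‖ ≤ 4 * ε := by
    refine (norm_add_le _ _).trans ?_
    rw [norm_smul, Real.norm_of_nonneg hε.le]
    nlinarith
  rw [← div_eq_inv_mul, div_le_iff₀ hpos]
  nlinarith


/-- existence of the next deep direction -/
theorem next_dir (D : Data X) (g : ℕ → (X →L[ℝ] ℝ)) (hg : Norming D g)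
    (A : X →L[ℝ] X) (hA : InA D g A) (m : ℕ) (k r : ℕ) (e : ℝ) (he : 0 < e) (sε : ℕ → ℝ)
    (hsε : ∀ j, 0 ≤ sε j) (hsum : ∀ n, ∑ j ∈ Finset.range n, sε j ≤ 1)
    (prev : Fin k → X) (hprev : ∀ i, prev i ∈ D.K) :
    ∃ n, r ≤ n ∧ 1 - 1 / ((r : ℝ) + 1) < g n (A (D.f n - D.qb)) ∧
      ‖D.R m (D.f n) - D.f n‖ ≤ e / ((r : ℝ) + 1) ∧
      ∀ b : ℕ → ℝ, (∀ j, 0 ≤ b j) → (∀ j, b j ≤ sε j) →
      1 - e / ((r : ℝ) + 1) < (g n).comp A
        (D.f n - D.R m (D.p + ∑ i : Fin k, b i • (prev i - D.p))) := by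
  classical
  have hr : (0 : ℝ) < (r : ℝ) + 1 := by positivity
  -- the compact box
  set B : Set (Fin k → ℝ) := Set.pi Set.univ fun i => Icc 0 (sε i) with hB
  have hBc : IsCompact B := isCompact_univ_pi fun i => isCompact_Icc
  set h : (Fin k → ℝ) → X := fun b => D.p + ∑ i : Fin k, b i • (prev i - D.p) with hh
  have hcont : Continuous h := by
    apply Continuous.add continuous_const
    apply continuous_finsetSum
    intro i _
    exact (continuous_apply i).smul continuous_const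
  have hmem : ∀ b ∈ B, h b ∈ D.K := by
    intro b hb
    have hb' : ∀ i : Fin k, 0 ≤ b i ∧ b i ≤ sε i := fun i => (hb i (mem_univ i))
    -- extend to ℕ
    set x : ℕ → X := fun j => if hj : j < k then prev ⟨j, hj⟩ else D.p with hx
    set a : ℕ → ℝ := fun j => if hj : j < k then b ⟨j, hj⟩ else 0 with ha
    have h1 : ∑ i : Fin k, b i • (prev i - D.p) = ∑ j ∈ Finset.range k, a j • (x j - D.p) := by
      rw [← Fin.sum_univ_eq_sum_range (fun j => a j • (x j - D.p)) k]
      apply Finset.sum_congr rfl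
      intro i _
      simp [ha, hx, i.2]
    simp only [hh]
    rw [h1]
    apply mem_finset D.convex D.hp x
    · intro j
      simp only [hx]
      split_ifs with hj
      · exact hprev _
      · exact D.hp
    · intro j _
      simp only [ha]
      split_ifs with hj
      · exact (hb' _).1
      · exact le_rfl
    · refine le_trans ?_ (hsum k)
      apply Finset.sum_le_sum
      intro j hj
      have hj' := Finset.mem_range.1 hj
      simp only [ha, hj', dif_pos]
      exact (hb' ⟨j, hj'⟩).2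
  set C : Set X := (fun b => D.R m (h b)) '' B with hC
  have hCc : IsCompact C := by
    apply hBc.image_of_continuousOn
    have h1 : ContinuousOn (D.R m) D.K := by
      have : LipschitzOnWith 1 (D.R m) D.K := by
        apply LipschitzOnWith.of_dist_le_mul
        intro a ha b hb
        rw [dist_eq_norm, dist_eq_norm]
        simpa using D.nonexp m a ha b hb
      exact this.continuousOn
    exact h1.comp hcont.continuousOn hmem
  have hCK : C ⊆ D.K := by
    rintro _ ⟨b, hb, rfl⟩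
    exact D.mapsTo m (hmem b hb)
  obtain ⟨η, hη, hU⟩ := lemU D C hCc hCK (e / ((r : ℝ) + 1)) (by positivity)
  have hfix := D.fix m
  have hfix' : ∀ᶠ n in atTop, ‖D.R m (D.R n D.p) - D.R n D.p‖ < e / ((r : ℝ) + 1) := by
    apply (tendsto_order.1 hfix).2
    positivity
  obtain ⟨n1, hn1⟩ := eventually_atTop.1 hfix'
  obtain ⟨n, hn, hgn⟩ := hA.2 (min η (1 / ((r : ℝ) + 1))) (lt_min hη (by positivity)) (max r n1)
  refine ⟨n, le_trans (le_max_left _ _) hn, ?_, ?_, ?_⟩
  · have := min_le_right η (1 / ((r : ℝ) + 1))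
    linarith
  · exact (hn1 n (le_trans (le_max_right _ _) hn)).le
  · intro b hb0 hb1
    have hk1 : ‖(g n).comp A‖ ≤ 1 := by
      refine (ContinuousLinearMap.opNorm_comp_le _ _).trans ?_
      have h1 := (hg n).1
      have h2 := hA.1
      have h3 := norm_nonneg (g n)
      have h4 := norm_nonneg A
      nlinarith
    refine hU ((g n).comp A) hk1 (D.f n) (D.mapsTo n D.hp) ?_ _ ⟨fun i => b i, ?_, rfl⟩
    · have := min_le_left η (1 / ((r : ℝ) + 1))
      show 1 - η < g n (A (D.f n - D.qb))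
      linarith
    · intro i _
      exact ⟨hb0 _, hb1 _⟩

/-- density of the span of the directions -/
theorem dense_dirs (D : Data X) (x : ℕ → X) (hx : ∀ k, ∃ j, x j = D.d k) :
    (Submodule.span ℝ (Set.range (fun k => x k - D.p))).topologicalClosure = ⊤ := by
  set W := (Submodule.span ℝ (Set.range (fun k => x k - D.p))).topologicalClosure with hW
  have h1 : ∀ y ∈ D.K, y - D.p ∈ W := by
    intro y hy
    have hcl : IsClosed {y : X | y - D.p ∈ W} :=
      (Submodule.isClosed_topologicalClosure _).preimage (continuous_id.sub continuous_const)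
    have hsub : Set.range D.d ⊆ {y : X | y - D.p ∈ W} := by
      rintro _ ⟨k, rfl⟩
      obtain ⟨j, hj⟩ := hx k
      show D.d k - D.p ∈ W
      rw [← hj]
      exact Submodule.le_topologicalClosure _ (Submodule.subset_span ⟨j, rfl⟩)
    exact closure_minimal hsub hcl (D.hdense hy)
  have h2 : Submodule.span ℝ {v : X | ∃ x ∈ D.K, ∃ y ∈ D.K, v = x - y} ≤ W := by
    rw [Submodule.span_le]
    rintro _ ⟨a, ha, b, hb, rfl⟩
    have : a - b = (a - D.p) - (b - D.p) := by abel
    rw [this]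
    exact W.sub_mem (h1 a ha) (h1 b hb)
  have h3 := Submodule.topologicalClosure_minimal _ h2 (Submodule.isClosed_topologicalClosure _)
  rw [D.dense_span] at h3
  exact top_le_iff.1 h3

end LemH

open LemH in
/-- E3 (Lemma H, heredity), from the statement of `grad` (E2). -/
theorem lemH_of_grad {Y : Type*} [NormedAddCommGroup Y] [NormedSpace ℝ Y] [CompleteSpace Y]
    (grad : ∀ (K : Set Y) (_ : IsClosed K) (_ : Convex ℝ K)
      (_ : ∀ x ∈ K, ∀ y ∈ K, ‖x - y‖ ≤ 1) (p : Y) (_ : p ∈ K) (x : ℕ → Y) (_ : ∀ k, x k ∈ K)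
      (ε : ℕ → ℝ) (_ : ∀ k, 0 < ε k) (_ : ∀ k, ∃ a s : ℕ, ε k = (a : ℝ) / 2 ^ s)
      (_ : ∀ n, ∑ j ∈ Finset.range n, ε j ≤ 1) (z : Y → Y) (_ : MapsTo z K K)
      (_ : ∀ a ∈ K, ∀ b ∈ K, ‖z a - z b‖ ≤ ‖a - b‖)
      (_ : (Submodule.span ℝ (Set.range (fun k => x k - p))).topologicalClosure = ⊤),
      ∃ S : Y →L[ℝ] Y, ‖S‖ ≤ 1 ∧ ∀ k, S (x k - p) ∈ closure (convexHull ℝ (Quot z p x ε k)))
    (D : Data Y) (g : ℕ → (Y →L[ℝ] ℝ)) (hg : Norming D g)
    (A : Y →L[ℝ] Y) (hA : InA D g A) (m : ℕ) (x₀ : Y) (hx₀ : x₀ ∈ D.K) (ε : ℝ) (hε : 0 < ε)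
    (hε2 : ε < 1 / 2) :
    ∃ S : Y →L[ℝ] Y, InA D g (A.comp S) ∧
      ‖S (x₀ - D.p) - (D.R m x₀ - D.R m D.p)‖ ≤ 8 * ε := by
  classical
  obtain ⟨s, hs⟩ : ∃ s : ℕ, (1 / 2 : ℝ) ^ s < ε := exists_pow_lt_of_lt_one hε (by norm_num)
  set δ : ℝ := (1 / 2 : ℝ) ^ s with hδ
  have hδ0 : 0 < δ := by positivity
  have hδ1 : δ < 1 := by linarith
  -- construction of the directions
  obtain ⟨x, hx⟩ := exists_seq_strong (α := Y)
    (fun k prev a => a ∈ D.K ∧ (k = 0 → a = x₀) ∧ (∀ r, k = 2 * r + 1 → a = D.d r) ∧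
      (∀ r, k = 2 * r + 2 → (∀ i, prev i ∈ D.K) → ∃ n, r ≤ n ∧ a = D.f n ∧
        1 - 1 / ((r : ℝ) + 1) < g n (A (D.f n - D.qb)) ∧
      ‖D.R m (D.f n) - D.f n‖ ≤ scl δ k / ((r : ℝ) + 1) ∧
      ∀ b : ℕ → ℝ, (∀ j, 0 ≤ b j) → (∀ j, b j ≤ scl δ j) →
      1 - scl δ k / ((r : ℝ) + 1) < (g n).comp A
        (D.f n - D.R m (D.p + ∑ i : Fin k, b i • (prev i - D.p))))) (by
    intro k prev
    rcases Nat.eq_zero_or_pos k with rfl | hk
    · exact ⟨x₀, hx₀, fun _ => rfl, fun r hr => by omega, fun r hr => by omega⟩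
    · rcases Nat.even_or_odd' k with ⟨c, hc | hc⟩
      · -- even, positive
        by_cases hprev : ∀ i, prev i ∈ D.K
        · obtain ⟨n, h1, h2, h3, h4⟩ := next_dir D g hg A hA m k (c - 1) (scl δ k)
            (scl_pos hδ0 hδ1 k) (scl δ) (fun j => (scl_pos hδ0 hδ1 j).le) (scl_sum_le hδ0)
            prev hprev
          refine ⟨D.f n, D.mapsTo n D.hp, fun h => by omega, fun r hr => by omega, ?_⟩
          intro r hr _
          have hrc : r = c - 1 := by omega
          subst hrc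
          exact ⟨n, h1, rfl, h2, h3, h4⟩
        · exact ⟨x₀, hx₀, fun h => by omega, fun r hr => by omega,
            fun r hr h => absurd h hprev⟩
      · refine ⟨D.d c, D.hd c, fun h => by omega, fun r hr => ?_, fun r hr => by omega⟩
        congr 1; omega)
  have hxK : ∀ k, x k ∈ D.K := fun k => (hx k).1
  have hx0 : x 0 = x₀ := (hx 0).2.1 rfl
  have hxd : ∀ r, x (2 * r + 1) = D.d r := fun r => (hx (2 * r + 1)).2.2.1 r rfl
  have hxf := fun r => (hx (2 * r + 2)).2.2.2 r rfl (fun i => hxK i)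
  choose n hn1 hn2 hn3 hn4 hn5 using hxf
  obtain ⟨S, hS1, hS2⟩ := grad D.K D.closed D.convex D.diam_le D.p D.hp x hxK (scl δ)
    (scl_pos hδ0 hδ1) (scl_dyadic s) (scl_sum_le hδ0) (D.R m) (D.mapsTo m) (D.nonexp m)
    (dense_dirs D x fun k => ⟨2 * k + 1, hxd k⟩)
  have hnorm : ∀ j, ‖(g j).comp A‖ ≤ 1 := by
    intro j
    refine (ContinuousLinearMap.opNorm_comp_le _ _).trans ?_
    have h1 := (hg j).1
    have h2 := hA.1
    have h3 := norm_nonneg (g j)
    have h4 := norm_nonneg A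
    nlinarith
  -- deep directions
  have hdeep : ∀ r : ℕ, 1 - 4 / ((r : ℝ) + 1) ≤ (g (n r)).comp A (S (D.f (n r) - D.p)) := by
    intro r
    have hr : (0 : ℝ) < (r : ℝ) + 1 := by positivity
    set φ := (g (n r)).comp A with hφ
    have hq : ∀ w ∈ Quot (D.R m) D.p x (scl δ) (2 * r + 2), 1 - 4 / ((r : ℝ) + 1) ≤ φ w := by
      apply deep_estimate D (D.R m) (D.mapsTo m) (D.nonexp m) hδ0 hδ1 x hxK φ (hnorm _)
        (2 * r + 2) (by omega) _ hr
      · push_cast
        have : (0 : ℝ) ≤ r := Nat.cast_nonneg r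
        linarith
      · rw [hn2 r]; exact hn4 r
      · intro b hb0 hb1
        rw [hn2 r]
        exact hn5 r b hb0 hb1
    have hcl : closure (convexHull ℝ (Quot (D.R m) D.p x (scl δ) (2 * r + 2)))
        ⊆ {w | 1 - 4 / ((r : ℝ) + 1) ≤ φ w} := by
      apply closure_minimal
      · apply convexHull_min hq
        exact convex_halfSpace_ge φ.toLinearMap.isLinear _
      · exact isClosed_le continuous_const φ.continuous
    have := hcl (hS2 (2 * r + 2))
    rw [hn2 r] at this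
    exact this
  refine ⟨S, ⟨?_, ?_⟩, ?_⟩
  · refine (ContinuousLinearMap.opNorm_comp_le _ _).trans ?_
    have h2 := hA.1
    have h3 := norm_nonneg S
    have h4 := norm_nonneg A
    nlinarith
  · intro η hη n₀
    obtain ⟨η', hη', hsm⟩ := small_of_near D (S (D.p - D.qb)) (η / 2) (by linarith)
    obtain ⟨r1, hr1⟩ := exists_nat_gt (8 / η)
    obtain ⟨r2, hr2⟩ := exists_nat_gt (1 / η')
    set r := max n₀ (max r1 r2) with hrdef
    have hrr1 : (r1 : ℝ) ≤ r := by
      exact_mod_cast le_trans (le_max_left r1 r2) (le_max_right n₀ _)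
    have hrr2 : (r2 : ℝ) ≤ r := by
      exact_mod_cast le_trans (le_max_right r1 r2) (le_max_right n₀ _)
    have hr : (0 : ℝ) < (r : ℝ) + 1 := by positivity
    have h4r : 4 / ((r : ℝ) + 1) < η / 2 := by
      rw [div_lt_iff₀ hr]
      have : 8 / η < r + 1 := by linarith
      rw [div_lt_iff₀ hη] at this
      linarith
    have h1r : 1 / ((r : ℝ) + 1) < η' := by
      rw [div_lt_iff₀ hr]
      have : 1 / η' < r + 1 := by linarith
      rw [div_lt_iff₀ hη'] at this
      linarith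
    refine ⟨n r, (le_max_left _ _).trans (hn1 r), ?_⟩
    have h1 := hdeep r
    have h2 := hsm ((g (n r)).comp A) (hnorm _) (D.f (n r)) (D.mapsTo _ D.hp) (by
      have := hn3 r
      show 1 - η' < g (n r) (A (D.f (n r) - D.qb))
      linarith)
    have h3 : g (n r) ((A.comp S) (D.f (n r) - D.qb))
        = (g (n r)).comp A (S (D.f (n r) - D.p)) + (g (n r)).comp A (S (D.p - D.qb)) := by
      rw [← map_add, ← map_add]
      have : D.f (n r) - D.p + (D.p - D.qb) = D.f (n r) - D.qb := by abel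
      rw [this]; rfl
    rw [h3]
    have h4 := (abs_lt.1 h2).1
    linarith
  · have hq := chord_estimate D (D.R m) (D.mapsTo m) (D.nonexp m) hδ0 (by linarith) x hxK
    have hcl : closure (convexHull ℝ (Quot (D.R m) D.p x (scl δ) 0))
        ⊆ Metric.closedBall (D.R m (x 0) - D.R m D.p) (8 * δ) := by
      apply closure_minimal
      · apply convexHull_min
        · intro w hw
          rw [Metric.mem_closedBall, dist_eq_norm]
          exact hq w hw
        · exact convex_closedBall _ _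
      · exact Metric.isClosed_closedBall
    have := hcl (hS2 0)
    rw [Metric.mem_closedBall, dist_eq_norm, hx0] at this
    linarith

end Crest.Agent.R108
end

-- ▼ part R108/Grad
section

/-!
# R108 (S0142): Lemma GRAD (average gradient), by iterated discrete averages and one weak
ultrafilter limit. `Avg.grad` is the version without the dyadic and closedness hypotheses.
-/

set_option autoImplicit false

open Filter Topology Set

namespace Crest.Agent.R108.Avg

universe u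

variable {Y : Type u} [NormedAddCommGroup Y] [NormedSpace ℝ Y]

/-- iterated discrete average in the directions `u 0, …, u (N-1)` with `M` steps each -/
noncomputable def avg (M : ℕ) (u : ℕ → Y) : ℕ → (Y → Y) → Y → Y
  | 0, G, h => G h
  | (n + 1), G, h => (M : ℝ)⁻¹ • ∑ i ∈ Finset.range M, avg M u n G (h + ((i : ℝ) / M) • u n)

theorem avg_zero (M : ℕ) (u : ℕ → Y) (G : Y → Y) (h : Y) : avg M u 0 G h = G h := rfl

theorem avg_succ (M : ℕ) (u : ℕ → Y) (n : ℕ) (G : Y → Y) (h : Y) :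
    avg M u (n + 1) G h =
      (M : ℝ)⁻¹ • ∑ i ∈ Finset.range M, avg M u n G (h + ((i : ℝ) / M) • u n) := rfl

theorem avg_sub (M : ℕ) (u : ℕ → Y) (n : ℕ) (F G : Y → Y) (h : Y) :
    avg M u n (fun y => F y - G y) h = avg M u n F h - avg M u n G h := by
  induction n generalizing h with
  | zero => rfl
  | succ n ih => simp only [avg_succ, ih, Finset.sum_sub_distrib, smul_sub]

theorem avg_smul (M : ℕ) (u : ℕ → Y) (n : ℕ) (c : ℝ) (F : Y → Y) (h : Y) :
    avg M u n (fun y => c • F y) h = c • avg M u n F h := by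
  induction n generalizing h with
  | zero => rfl
  | succ n ih => simp only [avg_succ, ih, ← Finset.smul_sum, smul_comm c]

theorem avg_translate (M : ℕ) (u : ℕ → Y) (n : ℕ) (F : Y → Y) (w h : Y) :
    avg M u n (fun y => F (y + w)) h = avg M u n F (h + w) := by
  induction n generalizing h with
  | zero => rfl
  | succ n ih =>
    simp only [avg_succ, ih]
    congr 1
    refine Finset.sum_congr rfl fun i _ => ?_
    rw [add_right_comm]

theorem avg_congr (M : ℕ) (u u' : ℕ → Y) (n : ℕ) (F : Y → Y) (hu : ∀ j < n, u j = u' j) (h : Y) :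
    avg M u n F h = avg M u' n F h := by
  induction n generalizing h with
  | zero => rfl
  | succ n ih =>
    simp only [avg_succ]
    rw [hu n (Nat.lt_succ_self n)]
    congr 1
    refine Finset.sum_congr rfl fun i _ => ?_
    exact ih (fun j hj => hu j (Nat.lt_succ_of_lt hj)) _

theorem avg_step (M : ℕ) (hM : 0 < M) (u : ℕ → Y) (n k : ℕ) (hk : k < n) (F : Y → Y) (h : Y) :
    avg M u n F (h + (M : ℝ)⁻¹ • u k) - avg M u n F h =
      (M : ℝ)⁻¹ • avg M (Function.update u k 0) n (fun y => F (y + u k) - F y) h := by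
  have hM' : (M : ℝ) ≠ 0 := by positivity
  induction n generalizing h with
  | zero => omega
  | succ n ih =>
    rcases Nat.lt_or_ge k n with hkn | hkn
    · simp only [avg_succ]
      have hne : n ≠ k := by omega
      rw [Function.update_of_ne hne, ← smul_sub, ← Finset.sum_sub_distrib]
      congr 1
      rw [Finset.smul_sum]
      refine Finset.sum_congr rfl fun i _ => ?_
      rw [← ih hkn, add_right_comm]
    · have hkn' : k = n := by omega
      subst hkn'
      simp only [avg_succ]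
      rw [Function.update_self, ← smul_sub, ← Finset.sum_sub_distrib]
      congr 1
      simp only [smul_zero, add_zero]
      rw [Finset.sum_const, Finset.card_range]
      have e1 : ∀ i : ℕ, avg M u k F (h + (M : ℝ)⁻¹ • u k + ((i : ℝ) / M) • u k)
          = avg M u k F (h + (((i + 1 : ℕ) : ℝ) / M) • u k) := by
        intro i
        congr 1
        rw [add_assoc, ← add_smul]
        congr 2
        push_cast
        field_simp
        ring
      simp only [e1]
      rw [Finset.sum_range_sub (fun i : ℕ => avg M u k F (h + ((i : ℝ) / M) • u k))]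
      rw [← Nat.cast_smul_eq_nsmul ℝ, smul_smul, inv_mul_cancel₀ hM', one_smul]
      rw [avg_congr M (Function.update u k 0) u k _
        (fun j hj => Function.update_of_ne (by omega) _ _), avg_sub, avg_translate]
      simp [hM']

theorem mem_avg (M : ℕ) (hM : 0 < M) (u : ℕ → Y) (n : ℕ) (F : Y → Y) (D : Set Y)
    (hD : Convex ℝ D) (h : Y)
    (hF : ∀ a : ℕ → ℝ, (∀ j, 0 ≤ a j) → (∀ j, a j ≤ 1) →
      F (h + ∑ j ∈ Finset.range n, a j • u j) ∈ D) :
    avg M u n F h ∈ D := by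
  have hM' : (M : ℝ) ≠ 0 := by positivity
  induction n generalizing h with
  | zero =>
    have := hF (fun _ => 0) (fun _ => le_refl _) (fun _ => zero_le_one)
    simpa [avg_zero] using this
  | succ n ih =>
    rw [avg_succ, Finset.smul_sum]
    refine hD.sum_mem (fun i _ => by positivity) ?_ ?_
    · rw [Finset.sum_const, Finset.card_range, nsmul_eq_mul, mul_inv_cancel₀ hM']
    · intro i hi
      refine ih _ ?_
      intro a ha0 ha1
      have hiM : i < M := Finset.mem_range.1 hi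
      have key := hF (Function.update a n ((i : ℝ) / M)) ?_ ?_
      · rw [Finset.sum_range_succ, Function.update_self] at key
        have e : ∑ j ∈ Finset.range n, Function.update a n ((i : ℝ) / M) j • u j
            = ∑ j ∈ Finset.range n, a j • u j := by
          refine Finset.sum_congr rfl fun j hj => ?_
          rw [Function.update_of_ne (Finset.mem_range.1 hj).ne]
        rw [e] at key
        have e2 : h + ((i : ℝ) / M) • u n + ∑ j ∈ Finset.range n, a j • u j
            = h + (∑ j ∈ Finset.range n, a j • u j + ((i : ℝ) / M) • u n) := by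
          abel
        rw [e2]
        exact key
      · intro j
        by_cases hj : j = n
        · subst hj; rw [Function.update_self]; positivity
        · rw [Function.update_of_ne hj]; exact ha0 j
      · intro j
        by_cases hj : j = n
        · subst hj; rw [Function.update_self, div_le_one (by positivity)]; exact_mod_cast hiM.le
        · rw [Function.update_of_ne hj]; exact ha1 j

theorem avg_lip (M : ℕ) (hM : 0 < M) (u : ℕ → Y) (n : ℕ) (F : Y → Y) (C : ℝ) (h h' : Y)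
    (hF : ∀ a : ℕ → ℝ, (∀ j, 0 ≤ a j) → (∀ j, a j ≤ 1) →
      ‖F (h + ∑ j ∈ Finset.range n, a j • u j) - F (h' + ∑ j ∈ Finset.range n, a j • u j)‖ ≤ C) :
    ‖avg M u n F h - avg M u n F h'‖ ≤ C := by
  have e : avg M u n F h - avg M u n F h'
      = avg M u n (fun y => F (y + h) - F (y + h')) 0 := by
    rw [avg_sub, avg_translate, avg_translate, zero_add, zero_add]
  rw [e, ← mem_closedBall_zero_iff]
  refine mem_avg M hM u n _ _ (convex_closedBall 0 C) 0 ?_
  intro a ha0 ha1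
  rw [mem_closedBall_zero_iff]
  have := hF a ha0 ha1
  rw [zero_add, add_comm _ h, add_comm _ h']
  exact this

/-! ### the domain -/

/-- points `(1-s) p + s y` with `y ∈ K`, `0 ≤ s ≤ r` -/
def Dom (K : Set Y) (p : Y) (r : ℝ) : Set Y :=
  {h | ∃ y ∈ K, ∃ s : ℝ, 0 ≤ s ∧ s ≤ r ∧ h = p + s • (y - p)}

theorem dom_self {K : Set Y} {p : Y} (hp : p ∈ K) {r : ℝ} (hr : 0 ≤ r) : p ∈ Dom K p r :=
  ⟨p, hp, 0, le_refl _, hr, by simp⟩

theorem dom_mono {K : Set Y} {p h : Y} {r r' : ℝ} (hh : h ∈ Dom K p r) (hr : r ≤ r') :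
    h ∈ Dom K p r' := by
  obtain ⟨y, hy, s, h0, h1, rfl⟩ := hh
  exact ⟨y, hy, s, h0, h1.trans hr, rfl⟩

theorem dom_add {K : Set Y} (hK : Convex ℝ K) {p h x : Y} {r t : ℝ} (hh : h ∈ Dom K p r)
    (hx : x ∈ K) (ht : 0 ≤ t) : h + t • (x - p) ∈ Dom K p (r + t) := by
  obtain ⟨y, hy, s, h0, h1, rfl⟩ := hh
  rcases eq_or_lt_of_le (add_nonneg h0 ht) with h2 | h2
  · have hs : s = 0 := by linarith
    have ht' : t = 0 := by linarith
    subst hs; subst ht'
    exact ⟨y, hy, 0, le_refl _, by linarith, by simp⟩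
  · refine ⟨(s / (s + t)) • y + (t / (s + t)) • x, ?_, s + t, h2.le, by linarith, ?_⟩
    · refine hK hy hx (by positivity) (by positivity) ?_
      field_simp
    · have e1 : (s + t) • ((s / (s + t)) • y + (t / (s + t)) • x - p)
          = s • y + t • x - (s + t) • p := by
        rw [smul_sub, smul_add, smul_smul, smul_smul, mul_div_cancel₀ _ h2.ne',
          mul_div_cancel₀ _ h2.ne']
      rw [e1]
      module

theorem dom_sub {K : Set Y} (hK : Convex ℝ K) {p h : Y} (hp : p ∈ K) {r : ℝ} (hh : h ∈ Dom K p r)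
    (hr : r ≤ 1) : h ∈ K := by
  obtain ⟨y, hy, s, h0, h1, rfl⟩ := hh
  have := hK hp hy (sub_nonneg.2 (h1.trans hr)) h0 (by ring)
  convert this using 1
  module

theorem dom_sum {K : Set Y} (hK : Convex ℝ K) {p : Y} {x : ℕ → Y} (hx : ∀ k, x k ∈ K)
    {ε : ℕ → ℝ} {r : ℝ} {h : Y} (hh : h ∈ Dom K p r) (a : ℕ → ℝ) (ha0 : ∀ j, 0 ≤ a j)
    (ha1 : ∀ j, a j ≤ ε j) (n : ℕ) :
    h + ∑ j ∈ Finset.range n, a j • (x j - p) ∈ Dom K p (r + ∑ j ∈ Finset.range n, ε j) := by
  induction n with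
  | zero => simpa using hh
  | succ n ih =>
    rw [Finset.sum_range_succ, Finset.sum_range_succ, ← add_assoc, ← add_assoc]
    refine dom_mono (dom_add hK ih (hx n) (ha0 n)) ?_
    have := ha1 n
    linarith

theorem dom_multiset {K : Set Y} (hK : Convex ℝ K) {p : Y} (hp : p ∈ K) {x : ℕ → Y}
    (hx : ∀ k, x k ∈ K) {ε : ℕ → ℝ} (hε : ∀ k, 0 < ε k) (hε1 : ∀ k, ε k ≤ 1) (M : ℕ)
    (L : Multiset ℕ) :
    p + (M : ℝ)⁻¹ • (L.map fun k => ε k • (x k - p)).sum ∈
      Dom K p ((M : ℝ)⁻¹ * (Multiset.card L : ℝ)) := by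
  induction L using Multiset.induction with
  | empty => simpa using dom_self hp (le_refl _)
  | cons k L ih =>
    rw [Multiset.map_cons, Multiset.sum_cons, Multiset.card_cons]
    have h1 := dom_add hK ih (hx k) (t := (M : ℝ)⁻¹ * ε k)
      (mul_nonneg (by positivity) (hε k).le)
    have e : p + (M : ℝ)⁻¹ • (ε k • (x k - p) + (L.map fun k => ε k • (x k - p)).sum)
        = p + (M : ℝ)⁻¹ • (L.map fun k => ε k • (x k - p)).sum
          + ((M : ℝ)⁻¹ * ε k) • (x k - p) := by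
      rw [smul_add, smul_smul]; abel
    rw [e]
    refine dom_mono h1 ?_
    push_cast
    have : (M : ℝ)⁻¹ * ε k ≤ (M : ℝ)⁻¹ * 1 :=
      mul_le_mul_of_nonneg_left (hε1 k) (by positivity)
    linarith

theorem norm_multiset {p : Y} {x : ℕ → Y} (hd : ∀ k, ‖x k - p‖ ≤ 1) {ε : ℕ → ℝ}
    (hε : ∀ k, 0 < ε k) (hε1 : ∀ k, ε k ≤ 1) (L : Multiset ℕ) :
    ‖(L.map fun k => ε k • (x k - p)).sum‖ ≤ (Multiset.card L : ℝ) := by
  induction L using Multiset.induction with
  | empty => simp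
  | cons k L ih =>
    rw [Multiset.map_cons, Multiset.sum_cons, Multiset.card_cons]
    refine (norm_add_le _ _).trans ?_
    rw [norm_smul, Real.norm_of_nonneg (hε k).le]
    push_cast
    have : ε k * ‖x k - p‖ ≤ 1 * 1 :=
      mul_le_mul (hε1 k) (hd k) (norm_nonneg _) zero_le_one
    linarith


/-! ### the averaged gradient -/

/-- averaged difference quotient in direction `u k` (scale `ε k`) -/
noncomputable def wq (M : ℕ) (u : ℕ → Y) (ε : ℕ → ℝ) (z : Y → Y) (n k : ℕ) (h : Y) : Y :=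
  avg M (Function.update u k 0) n (fun y => (ε k)⁻¹ • (z (y + u k) - z y)) h

section Main

variable {K : Set Y} (hK : Convex ℝ K) {z : Y → Y}
  (hzne : ∀ a ∈ K, ∀ b ∈ K, ‖z a - z b‖ ≤ ‖a - b‖) {p : Y} (hp : p ∈ K) {x : ℕ → Y}
  (hx : ∀ k, x k ∈ K) (hd : ∀ k, ‖x k - p‖ ≤ 1) {ε : ℕ → ℝ} (hε : ∀ k, 0 < ε k)
  (hsum : ∀ n, ∑ j ∈ Finset.range n, ε j ≤ 1)

include hε hsum in
theorem eps_le_one (k : ℕ) : ε k ≤ 1 := by
  have h1 := hsum (k + 1)
  have h2 : ε k ≤ ∑ j ∈ Finset.range (k + 1), ε j :=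
    Finset.single_le_sum (fun j _ => (hε j).le) (Finset.self_mem_range_succ k)
  linarith

include hε in
theorem step_wq (M : ℕ) (hM : 0 < M) (u : ℕ → Y) (n k : ℕ) (hk : k < n) (h : Y) :
    avg M u n z (h + (M : ℝ)⁻¹ • u k) - avg M u n z h =
      ((M : ℝ)⁻¹ * ε k) • wq M u ε z n k h := by
  rw [avg_step M hM u n k hk, wq, avg_smul, smul_smul, mul_assoc, mul_inv_cancel₀ (hε k).ne',
    mul_one]

include hK hp hx hε hsum in
/-- shifted grid points stay in `K` -/
theorem shift_mem (M : ℕ) (n : ℕ) (hMn : ((n : ℝ) + 1) * (M : ℝ)⁻¹ ≤ ε n)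
    (L : Multiset ℕ) (hL : Multiset.card L ≤ n) (a : ℕ → ℝ) (ha0 : ∀ j, 0 ≤ a j)
    (ha1 : ∀ j, a j ≤ 1) :
    (p + (M : ℝ)⁻¹ • (L.map fun k => ε k • (x k - p)).sum)
      + ∑ j ∈ Finset.range n, a j • (ε j • (x j - p)) ∈ K := by
  have hε1 := eps_le_one hε hsum
  have h1 := dom_multiset hK hp hx hε hε1 M L
  have h2 := dom_sum hK hx (ε := ε) h1 (fun j => a j * ε j) (fun j => mul_nonneg (ha0 j) (hε j).le)
    (fun j => by nlinarith [ha1 j, hε j]) n
  have e : ∑ j ∈ Finset.range n, (a j * ε j) • (x j - p)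
      = ∑ j ∈ Finset.range n, a j • (ε j • (x j - p)) :=
    Finset.sum_congr rfl fun j _ => by rw [smul_smul]
  rw [e] at h2
  refine dom_sub hK hp h2 ?_
  have h3 := hsum (n + 1)
  rw [Finset.sum_range_succ] at h3
  have h4 : (M : ℝ)⁻¹ * (Multiset.card L : ℝ) ≤ ε n := by
    refine le_trans ?_ hMn
    rw [mul_comm]
    refine mul_le_mul_of_nonneg_right ?_ (by positivity)
    have : (Multiset.card L : ℝ) ≤ n := by exact_mod_cast hL
    linarith
  linarith

include hK hp hx hε hsum hzne in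
theorem avg_nonexp (M : ℕ) (hM : 0 < M) (n : ℕ) (hMn : ((n : ℝ) + 1) * (M : ℝ)⁻¹ ≤ ε n)
    (L L' : Multiset ℕ) (hL : Multiset.card L ≤ n) (hL' : Multiset.card L' ≤ n) :
    ‖avg M (fun k => ε k • (x k - p)) n z
        (p + (M : ℝ)⁻¹ • (L.map fun k => ε k • (x k - p)).sum)
      - avg M (fun k => ε k • (x k - p)) n z
        (p + (M : ℝ)⁻¹ • (L'.map fun k => ε k • (x k - p)).sum)‖
      ≤ (M : ℝ)⁻¹ * ‖(L.map fun k => ε k • (x k - p)).sum
          - (L'.map fun k => ε k • (x k - p)).sum‖ := by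
  refine avg_lip M hM _ n z _ _ _ ?_
  intro a ha0 ha1
  refine (hzne _ (shift_mem hK hp hx hε hsum M n hMn L hL a ha0 ha1) _
    (shift_mem hK hp hx hε hsum M n hMn L' hL' a ha0 ha1)).trans ?_
  rw [add_sub_add_right_eq_sub, add_sub_add_left_eq_sub, ← smul_sub, norm_smul,
    Real.norm_of_nonneg (by positivity)]

include hK hp hx hε hsum hzne hd in
theorem wq_lip (M : ℕ) (hM : 0 < M) (n : ℕ) (hMn : ((n : ℝ) + 1) * (M : ℝ)⁻¹ ≤ ε n)
    (L : Multiset ℕ) (hL : Multiset.card L ≤ n) (k : ℕ) (hk : k < n) :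
    ‖wq M (fun k => ε k • (x k - p)) ε z n k
        (p + (M : ℝ)⁻¹ • (L.map fun k => ε k • (x k - p)).sum)
      - wq M (fun k => ε k • (x k - p)) ε z n k p‖
      ≤ (ε k)⁻¹ * (2 * ((M : ℝ)⁻¹ * (Multiset.card L : ℝ))) := by
  unfold wq
  refine avg_lip M hM _ n _ _ _ _ ?_
  intro a ha0 ha1
  have hε1 := eps_le_one hε hsum
  have eu : ∑ j ∈ Finset.range n, a j • Function.update (fun k => ε k • (x k - p)) k 0 j
      = ∑ j ∈ Finset.range n, Function.update a k 0 j • (ε j • (x j - p)) := by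
    refine Finset.sum_congr rfl fun j _ => ?_
    by_cases hj : j = k
    · subst hj; simp
    · rw [Function.update_of_ne hj, Function.update_of_ne hj]
  have eu1 : ∑ j ∈ Finset.range n, Function.update a k 0 j • (ε j • (x j - p)) + ε k • (x k - p)
      = ∑ j ∈ Finset.range n, Function.update a k 1 j • (ε j • (x j - p)) := by
    rw [← Finset.sum_erase_add _ _ (Finset.mem_range.2 hk),
      ← Finset.sum_erase_add (Finset.range n) (fun j => Function.update a k 1 j • (ε j • (x j - p)))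
        (Finset.mem_range.2 hk)]
    rw [Function.update_self, Function.update_self, zero_smul, add_zero, one_smul]
    congr 1
    refine Finset.sum_congr rfl fun j hj => ?_
    rw [Function.update_of_ne (Finset.ne_of_mem_erase hj),
      Function.update_of_ne (Finset.ne_of_mem_erase hj)]
  rw [eu]
  have u0 : ∀ j, 0 ≤ Function.update a k (0:ℝ) j := fun j => by
    by_cases hj : j = k
    · subst hj; simp
    · rw [Function.update_of_ne hj]; exact ha0 j
  have u0' : ∀ j, Function.update a k (0:ℝ) j ≤ 1 := fun j => by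
    by_cases hj : j = k
    · subst hj; simp
    · rw [Function.update_of_ne hj]; exact ha1 j
  have u1 : ∀ j, 0 ≤ Function.update a k (1:ℝ) j := fun j => by
    by_cases hj : j = k
    · subst hj; simp
    · rw [Function.update_of_ne hj]; exact ha0 j
  have u1' : ∀ j, Function.update a k (1:ℝ) j ≤ 1 := fun j => by
    by_cases hj : j = k
    · subst hj; simp
    · rw [Function.update_of_ne hj]; exact ha1 j
  have m1 := shift_mem hK hp hx hε hsum M n hMn L hL _ u0 u0'
  have m2 := shift_mem hK hp hx hε hsum M n hMn L hL _ u1 u1'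
  have m3 := shift_mem hK hp hx hε hsum M n hMn 0 (by simp) _ u0 u0'
  have m4 := shift_mem hK hp hx hε hsum M n hMn 0 (by simp) _ u1 u1'
  simp only [Multiset.map_zero, Multiset.sum_zero, smul_zero, add_zero] at m3 m4
  rw [← eu1, ← add_assoc] at m2 m4
  have hη : ‖(M : ℝ)⁻¹ • (L.map fun k => ε k • (x k - p)).sum‖
      ≤ (M : ℝ)⁻¹ * (Multiset.card L : ℝ) := by
    rw [norm_smul, Real.norm_of_nonneg (by positivity)]
    exact mul_le_mul_of_nonneg_left (norm_multiset hd hε hε1 L) (by positivity)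
  have d1 := hzne _ m1 _ m3
  have d2 := hzne _ m2 _ m4
  rw [add_sub_add_right_eq_sub, add_sub_cancel_left] at d1
  rw [add_sub_add_right_eq_sub, add_sub_add_right_eq_sub, add_sub_cancel_left] at d2
  rw [← smul_sub, norm_smul, Real.norm_of_nonneg (inv_nonneg.2 (hε k).le)]
  refine mul_le_mul_of_nonneg_left ?_ (inv_nonneg.2 (hε k).le)
  have e3 : ∀ A B C D : Y, A - B - (C - D) = (A - C) - (B - D) := fun A B C D => by abel
  rw [e3]
  refine (norm_sub_le _ _).trans ?_
  linarith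

include hK hp hx hε hsum hzne hd in
theorem avg_path (M : ℕ) (hM : 0 < M) (n : ℕ) (hMn : ((n : ℝ) + 1) * (M : ℝ)⁻¹ ≤ ε n)
    (L : Multiset ℕ) (hL : Multiset.card L ≤ n) (hLn : ∀ k ∈ L, k < n) :
    ‖avg M (fun k => ε k • (x k - p)) n z
        (p + (M : ℝ)⁻¹ • (L.map fun k => ε k • (x k - p)).sum)
      - avg M (fun k => ε k • (x k - p)) n z p
      - (M : ℝ)⁻¹ • (L.map fun k => ε k • wq M (fun k => ε k • (x k - p)) ε z n k p).sum‖
      ≤ ((M : ℝ)⁻¹) ^ 2 * (Multiset.card L : ℝ) ^ 2 := by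
  induction L using Multiset.induction with
  | empty => simp
  | cons k L ih =>
    have hcard : Multiset.card L ≤ n := by
      rw [Multiset.card_cons] at hL; omega
    have hk : k < n := hLn k (Multiset.mem_cons_self k L)
    have ih' := ih hcard (fun j hj => hLn j (Multiset.mem_cons_of_mem hj))
    simp only [Multiset.map_cons, Multiset.sum_cons, Multiset.card_cons]
    set u : ℕ → Y := fun k => ε k • (x k - p) with hu
    set η : Y := (L.map u).sum with hη
    set W : Y := (L.map fun k => ε k • wq M u ε z n k p).sum with hW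
    have e1 : p + (M : ℝ)⁻¹ • (ε k • (x k - p) + η) = (p + (M : ℝ)⁻¹ • η) + (M : ℝ)⁻¹ • u k := by
      simp only [hu, smul_add]; abel
    have e2 := step_wq (z := z) hε M hM u n k hk (p + (M : ℝ)⁻¹ • η)
    have e3 := wq_lip hK hzne hp hx hd hε hsum M hM n hMn L hcard k hk
    rw [← hu, ← hη] at e3
    rw [e1]
    have e4 : avg M u n z (p + (M : ℝ)⁻¹ • η + (M : ℝ)⁻¹ • u k) - avg M u n z p
        - (M : ℝ)⁻¹ • (ε k • wq M u ε z n k p + W)
        = (avg M u n z (p + (M : ℝ)⁻¹ • η) - avg M u n z p - (M : ℝ)⁻¹ • W)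
          + ((M : ℝ)⁻¹ * ε k) • (wq M u ε z n k (p + (M : ℝ)⁻¹ • η) - wq M u ε z n k p) := by
      have e6 : ((M : ℝ)⁻¹ * ε k) • (wq M u ε z n k (p + (M : ℝ)⁻¹ • η) - wq M u ε z n k p)
          = (avg M u n z (p + (M : ℝ)⁻¹ • η + (M : ℝ)⁻¹ • u k) - avg M u n z (p + (M : ℝ)⁻¹ • η))
            - (M : ℝ)⁻¹ • (ε k • wq M u ε z n k p) := by
        rw [smul_sub, ← e2, mul_smul]
      rw [e6, smul_add]; abel
    rw [e4]
    refine (norm_add_le _ _).trans ?_
    have e5 : ‖((M : ℝ)⁻¹ * ε k) • (wq M u ε z n k (p + (M : ℝ)⁻¹ • η) - wq M u ε z n k p)‖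
        ≤ ((M : ℝ)⁻¹) ^ 2 * (2 * (Multiset.card L : ℝ)) := by
      rw [norm_smul, Real.norm_of_nonneg (mul_nonneg (by positivity) (hε k).le)]
      calc (M : ℝ)⁻¹ * ε k * ‖wq M u ε z n k (p + (M : ℝ)⁻¹ • η) - wq M u ε z n k p‖
          ≤ (M : ℝ)⁻¹ * ε k * ((ε k)⁻¹ * (2 * ((M : ℝ)⁻¹ * (Multiset.card L : ℝ)))) :=
            mul_le_mul_of_nonneg_left e3 (mul_nonneg (by positivity) (hε k).le)
        _ = ((M : ℝ)⁻¹) ^ 2 * (2 * (Multiset.card L : ℝ)) * (ε k * (ε k)⁻¹) := by ring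
        _ = ((M : ℝ)⁻¹) ^ 2 * (2 * (Multiset.card L : ℝ)) := by
            rw [mul_inv_cancel₀ (hε k).ne', mul_one]
    push_cast
    have : 0 ≤ ((M : ℝ)⁻¹) ^ 2 := by positivity
    nlinarith [ih', e5]

include hK hp hx hε hsum hzne hd in
theorem wq_estimate (M : ℕ) (hM : 0 < M) (n : ℕ) (hMn : ((n : ℝ) + 1) * (M : ℝ)⁻¹ ≤ ε n)
    (L L' : Multiset ℕ) (hL : Multiset.card L ≤ n) (hL' : Multiset.card L' ≤ n)
    (hLn : ∀ k ∈ L, k < n) (hLn' : ∀ k ∈ L', k < n) :
    ‖(L.map fun k => ε k • wq M (fun k => ε k • (x k - p)) ε z n k p).sum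
      - (L'.map fun k => ε k • wq M (fun k => ε k • (x k - p)) ε z n k p).sum‖
      ≤ ‖(L.map fun k => ε k • (x k - p)).sum - (L'.map fun k => ε k • (x k - p)).sum‖
        + (M : ℝ)⁻¹ * ((Multiset.card L : ℝ) ^ 2 + (Multiset.card L' : ℝ) ^ 2) := by
  have h1 := avg_path hK hzne hp hx hd hε hsum M hM n hMn L hL hLn
  have h2 := avg_path hK hzne hp hx hd hε hsum M hM n hMn L' hL' hLn'
  have h3 := avg_nonexp hK hzne hp hx hε hsum M hM n hMn L L' hL hL'
  have hM' : (0 : ℝ) < M := by exact_mod_cast hM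
  set u : ℕ → Y := fun k => ε k • (x k - p) with hu
  set W : Y := (L.map fun k => ε k • wq M u ε z n k p).sum with hW
  set W' : Y := (L'.map fun k => ε k • wq M u ε z n k p).sum with hW'
  set Z := avg M u n z (p + (M : ℝ)⁻¹ • (L.map u).sum) with hZ
  set Z' := avg M u n z (p + (M : ℝ)⁻¹ • (L'.map u).sum) with hZ'
  set Z0 := avg M u n z p with hZ0
  have e : (M : ℝ)⁻¹ • (W - W') = (Z - Z') - (Z - Z0 - (M : ℝ)⁻¹ • W)
      + (Z' - Z0 - (M : ℝ)⁻¹ • W') := by
    rw [smul_sub]; abel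
  have h4 : (M : ℝ)⁻¹ * ‖W - W'‖ ≤ (M : ℝ)⁻¹ * ‖(L.map u).sum - (L'.map u).sum‖
      + ((M : ℝ)⁻¹) ^ 2 * (Multiset.card L : ℝ) ^ 2
      + ((M : ℝ)⁻¹) ^ 2 * (Multiset.card L' : ℝ) ^ 2 := by
    have : (M : ℝ)⁻¹ * ‖W - W'‖ = ‖(M : ℝ)⁻¹ • (W - W')‖ := by
      rw [norm_smul, Real.norm_of_nonneg (by positivity)]
    rw [this, e]
    refine (norm_add_le _ _).trans ?_
    have := norm_sub_le (Z - Z') (Z - Z0 - (M : ℝ)⁻¹ • W)
    linarith
  have h5 : (M : ℝ)⁻¹ * ‖W - W'‖ ≤ (M : ℝ)⁻¹ * (‖(L.map u).sum - (L'.map u).sum‖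
        + (M : ℝ)⁻¹ * ((Multiset.card L : ℝ) ^ 2 + (Multiset.card L' : ℝ) ^ 2)) := by
    refine h4.trans (le_of_eq ?_)
    ring
  exact le_of_mul_le_mul_left h5 (by positivity)

include hε in
theorem wq_mem (M : ℕ) (hM : 0 < M) (n k : ℕ) :
    wq M (fun k => ε k • (x k - p)) ε z n k p ∈ convexHull ℝ (Quot z p x ε k) := by
  unfold wq
  refine mem_avg M hM _ n _ _ (convex_convexHull ℝ _) p ?_
  intro a ha0 ha1
  refine subset_convexHull ℝ _ ?_
  have eu : ∑ j ∈ Finset.range n, a j • Function.update (fun k => ε k • (x k - p)) k 0 j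
      = ∑ j ∈ Finset.range n, (Function.update a k 0 j * ε j) • (x j - p) := by
    refine Finset.sum_congr rfl fun j _ => ?_
    by_cases hj : j = k
    · subst hj; simp
    · rw [Function.update_of_ne hj, Function.update_of_ne hj, smul_smul]
  rw [eu]
  refine ⟨_, ⟨n, fun j => Function.update a k 0 j * ε j, ?_, ?_, ?_, rfl⟩, rfl⟩
  · intro j
    by_cases hj : j = k
    · subst hj; simp
    · simp only [Function.update_of_ne hj]; exact mul_nonneg (ha0 j) (hε j).le
  · intro j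
    by_cases hj : j = k
    · subst hj; simp [(hε j).le]
    · simp only [Function.update_of_ne hj]
      nlinarith [ha1 j, hε j]
  · simp

end Main


/-! ### weak ultrafilter limits -/

section Lim

theorem exists_weak_ulim (hY : Refl Y) (U : Ultrafilter ℕ) (a : ℕ → Y) (C : ℝ)
    (h : ∀ᶠ n in (U : Filter ℕ), ‖a n‖ ≤ C) :
    ∃ y : Y, ∀ φ : Y →L[ℝ] ℝ, Tendsto (fun n => φ (a n)) U (𝓝 (φ y)) := by
  have hcomp := WeakDual.isCompact_closedBall (𝕜 := ℝ) (E := StrongDual ℝ Y) 0 C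
  set b : ℕ → WeakDual ℝ (StrongDual ℝ Y) := fun n =>
    StrongDual.toWeakDual (NormedSpace.inclusionInDoubleDual ℝ Y (a n)) with hb
  have hmem : ∀ᶠ n in (U : Filter ℕ), b n ∈ WeakDual.toStrongDual ⁻¹' Metric.closedBall 0 C := by
    filter_upwards [h] with n hn
    rw [mem_preimage, Metric.mem_closedBall]
    refine le_trans ?_ hn
    refine le_trans (le_of_eq (dist_zero_right
      (NormedSpace.inclusionInDoubleDual ℝ Y (a n)))) ?_
    exact NormedSpace.double_dual_bound ℝ Y (a n)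
  have hle : ((U.map b : Ultrafilter (WeakDual ℝ (StrongDual ℝ Y))) :
      Filter (WeakDual ℝ (StrongDual ℝ Y))) ≤
      𝓟 (WeakDual.toStrongDual ⁻¹' Metric.closedBall 0 C) := by
    rw [le_principal_iff]
    exact hmem
  obtain ⟨φ, _, hφ⟩ := hcomp.ultrafilter_le_nhds _ hle
  obtain ⟨y, hy⟩ := hY (WeakDual.toStrongDual φ)
  refine ⟨y, fun ψ => ?_⟩
  have ht : Tendsto b U (𝓝 φ) := hφ
  have h2 := ((WeakDual.eval_continuous (𝕜 := ℝ) (E := StrongDual ℝ Y) ψ).tendsto φ).comp ht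
  have e : φ ψ = ψ y := by
    have := congrArg (fun F => F ψ) hy
    simpa using this.symm
  rw [e] at h2
  exact h2

theorem ulim_mem (U : Ultrafilter ℕ) (a : ℕ → Y) (y : Y)
    (h : ∀ φ : Y →L[ℝ] ℝ, Tendsto (fun n => φ (a n)) U (𝓝 (φ y))) (D : Set Y)
    (hDc : IsClosed D) (hD : Convex ℝ D) (hm : ∀ᶠ n in (U : Filter ℕ), a n ∈ D) : y ∈ D := by
  by_contra hy
  obtain ⟨f, u, h1, h2⟩ := geometric_hahn_banach_point_closed hD hDc hy
  have h3 : ∀ᶠ n in (U : Filter ℕ), f (a n) < u := (h f).eventually_lt_const h1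
  obtain ⟨n, hn1, hn2⟩ := (hm.and h3).exists
  exact lt_asymm hn2 (h2 _ hn1)

end Lim


/-! ### assembly -/

section Final

theorem tendsto_multiset {U : Ultrafilter ℕ} {a : ℕ → ℕ → Y} {w : ℕ → Y} {ε : ℕ → ℝ}
    (h : ∀ k, ∀ φ : Y →L[ℝ] ℝ, Tendsto (fun n => φ (a n k)) U (𝓝 (φ (w k))))
    (φ : Y →L[ℝ] ℝ) (L : Multiset ℕ) :
    Tendsto (fun n => φ ((L.map fun k => ε k • a n k).sum)) U
      (𝓝 (φ ((L.map fun k => ε k • w k).sum))) := by
  induction L using Multiset.induction with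
  | empty => simp
  | cons k L ih =>
    simp only [Multiset.map_cons, Multiset.sum_cons, map_add, map_smul]
    exact ((h k φ).const_smul (ε k)).add ih

theorem grad (hY : Refl Y) (K : Set Y) (hK : Convex ℝ K)
    (hdiam : ∀ x ∈ K, ∀ y ∈ K, ‖x - y‖ ≤ 1) (p : Y) (hp : p ∈ K) (x : ℕ → Y) (hx : ∀ k, x k ∈ K)
    (ε : ℕ → ℝ) (hε : ∀ k, 0 < ε k)
    (hsum : ∀ n, ∑ j ∈ Finset.range n, ε j ≤ 1) (z : Y → Y)
    (hzne : ∀ a ∈ K, ∀ b ∈ K, ‖z a - z b‖ ≤ ‖a - b‖) [CompleteSpace Y]
    (hdense : (Submodule.span ℝ (Set.range (fun k => x k - p))).topologicalClosure = ⊤) :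
    ∃ S : Y →L[ℝ] Y, ‖S‖ ≤ 1 ∧ ∀ k, S (x k - p) ∈ closure (convexHull ℝ (Quot z p x ε k)) := by
  classical
  have hd : ∀ k, ‖x k - p‖ ≤ 1 := fun k => hdiam _ (hx k) _ hp
  have hε1 := eps_le_one hε hsum
  -- mesh sizes
  have hMex : ∀ n : ℕ, ∃ M : ℕ, 0 < M ∧ ((n : ℝ) + 1) * (M : ℝ)⁻¹ ≤ ε n := by
    intro n
    obtain ⟨M, hM⟩ := exists_nat_gt (((n : ℝ) + 1) / ε n)
    have h1 : (0 : ℝ) < M := lt_of_le_of_lt (by have := hε n; positivity) hM
    refine ⟨M, by exact_mod_cast h1, ?_⟩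
    rw [div_lt_iff₀ (hε n)] at hM
    rw [← div_eq_mul_inv, div_le_iff₀ h1]
    linarith
  choose M hM0 hM1 using hMex
  set u : ℕ → Y := fun k => ε k • (x k - p) with hu
  set a : ℕ → ℕ → Y := fun n k => wq (M n) u ε z n k p with ha
  set U : Ultrafilter ℕ := Filter.hyperfilter ℕ with hU
  have hUat : (U : Filter ℕ) ≤ atTop := by
    rw [← Nat.cofinite_eq_atTop]; exact Filter.hyperfilter_le_cofinite
  -- membership of the finite stage vectors
  have hamem : ∀ n k, a n k ∈ convexHull ℝ (Quot z p x ε k) := fun n k =>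
    wq_mem hε (M n) (hM0 n) n k
  -- estimate of the finite stage vectors
  have hest : ∀ n, ∀ L L' : Multiset ℕ, Multiset.card L ≤ n → Multiset.card L' ≤ n →
      (∀ k ∈ L, k < n) → (∀ k ∈ L', k < n) →
      ‖(L.map fun k => ε k • a n k).sum - (L'.map fun k => ε k • a n k).sum‖
      ≤ ‖(L.map u).sum - (L'.map u).sum‖
        + (M n : ℝ)⁻¹ * ((Multiset.card L : ℝ) ^ 2 + (Multiset.card L' : ℝ) ^ 2) :=
    fun n L L' h1 h2 h3 h4 =>
      wq_estimate hK hzne hp hx hd hε hsum (M n) (hM0 n) n (hM1 n) L L' h1 h2 h3 h4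
  have hMinv : Tendsto (fun n => (M n : ℝ)⁻¹) atTop (𝓝 0) := by
    refine squeeze_zero (fun n => by positivity) (g := fun n : ℕ => 1 / ((n : ℝ) + 1)) ?_
      tendsto_one_div_add_atTop_nhds_zero_nat
    intro n
    have h1 : ((n : ℝ) + 1) * (M n : ℝ)⁻¹ ≤ 1 := (hM1 n).trans (hε1 n)
    rw [le_div_iff₀ (by positivity)]
    linarith
  -- boundedness
  have hbd : ∀ k, ∀ᶠ n in (U : Filter ℕ), ‖a n k‖ ≤ (ε k)⁻¹ * (1 + 1) := by
    intro k
    have h1 : ∀ᶠ n in atTop, (M n : ℝ)⁻¹ < 1 := hMinv.eventually_lt_const zero_lt_one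
    filter_upwards [hUat (eventually_gt_atTop k), hUat h1] with n hn hn1
    have h2 := hest n {k} 0 (by rw [Multiset.card_singleton]; omega) (by simp)
      (by simpa using hn) (by simp)
    simp only [Multiset.map_singleton, Multiset.sum_singleton, Multiset.map_zero,
      Multiset.sum_zero, sub_zero, Multiset.card_singleton, Multiset.card_zero] at h2
    rw [norm_smul, Real.norm_of_nonneg (hε k).le] at h2
    have h3 : ‖u k‖ ≤ 1 := by
      rw [hu, norm_smul, Real.norm_of_nonneg (hε k).le]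
      have := mul_le_mul (hε1 k) (hd k) (norm_nonneg _) zero_le_one
      linarith
    have h4 : ε k * ‖a n k‖ ≤ 1 + 1 := by
      refine h2.trans ?_
      norm_num
      linarith
    rw [le_inv_mul_iff₀ (hε k)]
    exact h4
  choose w hw using fun k => exists_weak_ulim hY U (fun n => a n k) _ (hbd k)
  have hwmem : ∀ k, w k ∈ closure (convexHull ℝ (Quot z p x ε k)) := by
    intro k
    refine ulim_mem U (fun n => a n k) (w k) (hw k) _ isClosed_closure
      (convex_convexHull ℝ _).closure ?_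
    exact Eventually.of_forall fun n => subset_closure (hamem n k)
  -- inequality for multisets
  have hineq : ∀ L L' : Multiset ℕ,
      ‖(L.map fun k => ε k • w k).sum - (L'.map fun k => ε k • w k).sum‖
        ≤ ‖(L.map u).sum - (L'.map u).sum‖ := by
    intro L L'
    refine le_of_forall_pos_le_add fun η hη => ?_
    rw [← mem_closedBall_zero_iff]
    refine ulim_mem U (fun n => (L.map fun k => ε k • a n k).sum
      - (L'.map fun k => ε k • a n k).sum) _ ?_ _ Metric.isClosed_closedBall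
      (convex_closedBall 0 _) ?_
    · intro φ
      simp only [map_sub]
      exact (tendsto_multiset hw φ L).sub (tendsto_multiset hw φ L')
    · have h0 : Tendsto (fun n => (M n : ℝ)⁻¹ *
          ((Multiset.card L : ℝ) ^ 2 + (Multiset.card L' : ℝ) ^ 2)) atTop (𝓝 0) := by
        simpa using hMinv.mul_const ((Multiset.card L : ℝ) ^ 2 + (Multiset.card L' : ℝ) ^ 2)
      have h1 : ∀ᶠ n in atTop, ∀ k ∈ L, k < n := by
        obtain ⟨B, hB⟩ : ∃ B : ℕ, ∀ k ∈ L, k ≤ B :=
          ⟨L.sum, fun k hk => Multiset.single_le_sum (fun _ _ => Nat.zero_le _) k hk⟩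
        filter_upwards [eventually_gt_atTop B] with n hn k hk
        exact lt_of_le_of_lt (hB k hk) hn
      have h2 : ∀ᶠ n in atTop, ∀ k ∈ L', k < n := by
        obtain ⟨B, hB⟩ : ∃ B : ℕ, ∀ k ∈ L', k ≤ B :=
          ⟨L'.sum, fun k hk => Multiset.single_le_sum (fun _ _ => Nat.zero_le _) k hk⟩
        filter_upwards [eventually_gt_atTop B] with n hn k hk
        exact lt_of_le_of_lt (hB k hk) hn
      filter_upwards [hUat h1, hUat h2, hUat (eventually_ge_atTop (Multiset.card L)),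
        hUat (eventually_ge_atTop (Multiset.card L')), hUat (h0.eventually_lt_const hη)]
        with n n1 n2 n3 n4 n5
      rw [mem_closedBall_zero_iff]
      refine (hest n L L' n3 n4 n1 n2).trans ?_
      linarith
  -- inequality for natural coefficients
  have hnat : ∀ (s : Finset ℕ) (m m' : ℕ → ℕ),
      ‖∑ k ∈ s, ((m k : ℝ) - (m' k : ℝ)) • (ε k • w k)‖
        ≤ ‖∑ k ∈ s, ((m k : ℝ) - (m' k : ℝ)) • u k‖ := by
    intro s m m'
    have key : ∀ (f : ℕ → Y) (m : ℕ → ℕ),
        ((∑ k ∈ s, m k • ({k} : Multiset ℕ)).map f).sum = ∑ k ∈ s, (m k : ℝ) • f k := by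
      intro f m
      have h1 : ((∑ k ∈ s, m k • ({k} : Multiset ℕ)).map f).sum
          = (Multiset.sumAddMonoidHom.comp (Multiset.mapAddMonoidHom f))
              (∑ k ∈ s, m k • ({k} : Multiset ℕ)) := rfl
      rw [h1, map_sum]
      refine Finset.sum_congr rfl fun k _ => ?_
      rw [map_nsmul, Nat.cast_smul_eq_nsmul]
      congr 1
      simp
    have h := hineq (∑ k ∈ s, m k • ({k} : Multiset ℕ)) (∑ k ∈ s, m' k • ({k} : Multiset ℕ))
    rw [key, key, key, key, ← Finset.sum_sub_distrib, ← Finset.sum_sub_distrib] at h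
    simpa only [sub_smul] using h
  -- inequality for real coefficients
  have hreal : ∀ (s : Finset ℕ) (c : ℕ → ℝ),
      ‖∑ k ∈ s, c k • (ε k • w k)‖ ≤ ‖∑ k ∈ s, c k • u k‖ := by
    intro s c
    have ht : ∀ f : ℕ → Y, Tendsto (fun R : ℕ => ∑ k ∈ s,
        (((⌊(max (c k) 0) * (R : ℝ)⌋₊ : ℝ) - (⌊(max (-c k) 0) * (R : ℝ)⌋₊ : ℝ)) / (R : ℝ)) • f k)
        atTop (𝓝 (∑ k ∈ s, c k • f k)) := by
      intro f
      refine tendsto_finsetSum _ fun k _ => ?_
      refine Tendsto.smul_const ?_ _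
      have h1 := (tendsto_nat_floor_mul_div_atTop (R := ℝ) (le_max_right (c k) 0)).comp
        tendsto_natCast_atTop_atTop
      have h2 := (tendsto_nat_floor_mul_div_atTop (R := ℝ) (le_max_right (-c k) 0)).comp
        tendsto_natCast_atTop_atTop
      have h3 := h1.sub h2
      have e : max (c k) 0 - max (-c k) 0 = c k := by
        rcases le_total (c k) 0 with h | h
        · rw [max_eq_right h, max_eq_left (by linarith)]; ring
        · rw [max_eq_left h, max_eq_right (by linarith)]; ring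
      rw [e] at h3
      refine h3.congr fun R => ?_
      simp only [Function.comp]
      rw [sub_div]
    refine le_of_tendsto_of_tendsto' (ht _).norm (ht _).norm fun R => ?_
    have h := hnat s (fun k => ⌊(max (c k) 0) * (R : ℝ)⌋₊) (fun k => ⌊(max (-c k) 0) * (R : ℝ)⌋₊)
    have e : ∀ f : ℕ → Y, ∑ k ∈ s,
        (((⌊(max (c k) 0) * (R : ℝ)⌋₊ : ℝ) - (⌊(max (-c k) 0) * (R : ℝ)⌋₊ : ℝ)) / (R : ℝ)) • f k
        = (R : ℝ)⁻¹ • ∑ k ∈ s,
          ((⌊(max (c k) 0) * (R : ℝ)⌋₊ : ℝ) - (⌊(max (-c k) 0) * (R : ℝ)⌋₊ : ℝ)) • f k := by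
      intro f
      rw [Finset.smul_sum]
      refine Finset.sum_congr rfl fun k _ => ?_
      rw [smul_smul, div_eq_inv_mul]
    rw [e, e, norm_smul, norm_smul]
    exact mul_le_mul_of_nonneg_left h (norm_nonneg _)
  -- extension
  set e : (ℕ →₀ ℝ) →ₗ[ℝ] Y := Finsupp.linearCombination ℝ (fun k => x k - p) with he
  set f : (ℕ →₀ ℝ) →ₗ[ℝ] Y := Finsupp.linearCombination ℝ w with hf
  have hde : DenseRange e := by
    have h1 : (LinearMap.range e) = Submodule.span ℝ (Set.range (fun k => x k - p)) :=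
      Finsupp.range_linearCombination ℝ
    have h2 : Dense ((Submodule.span ℝ (Set.range (fun k => x k - p)) : Submodule ℝ Y) : Set Y) :=
      Submodule.dense_iff_topologicalClosure_eq_top.2 hdense
    rw [← h1] at h2
    have h3 : ((LinearMap.range e : Submodule ℝ Y) : Set Y) = Set.range e := by
      ext y; simp
    rw [h3] at h2
    exact h2
  have hnorm : ∀ c, ‖f c‖ ≤ 1 * ‖e c‖ := by
    intro c
    have h := hreal c.support (fun k => c k * (ε k)⁻¹)
    have e1 : ∑ k ∈ c.support, (c k * (ε k)⁻¹) • (ε k • w k) = f c := by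
      rw [hf, Finsupp.linearCombination_apply, Finsupp.sum]
      refine Finset.sum_congr rfl fun k _ => ?_
      rw [smul_smul, mul_assoc, inv_mul_cancel₀ (hε k).ne', mul_one]
    have e2 : ∑ k ∈ c.support, (c k * (ε k)⁻¹) • u k = e c := by
      rw [he, Finsupp.linearCombination_apply, Finsupp.sum]
      refine Finset.sum_congr rfl fun k _ => ?_
      rw [hu, smul_smul, mul_assoc, inv_mul_cancel₀ (hε k).ne', mul_one]
    rw [e1, e2] at h
    rwa [one_mul]
  refine ⟨f.extendOfNorm e, ?_, ?_⟩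
  · refine ContinuousLinearMap.opNorm_le_bound _ zero_le_one fun y => ?_
    exact LinearMap.norm_extendOfNorm_apply_le hde 1 hnorm y
  · intro k
    have h1 : f.extendOfNorm e (e (Finsupp.single k 1)) = f (Finsupp.single k 1) :=
      LinearMap.extendOfNorm_eq hde ⟨1, hnorm⟩ _
    have h2 : e (Finsupp.single k 1) = x k - p := by simp [he]
    have h3 : f (Finsupp.single k 1) = w k := by simp [hf]
    rw [h2, h3] at h1
    rw [h1]
    exact hwmem k

end Final

end Crest.Agent.R108.Avg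

namespace Crest.Agent.R108

universe u

variable {Y : Type u} [NormedAddCommGroup Y] [NormedSpace ℝ Y] [CompleteSpace Y]

set_option linter.unusedVariables false in
/-- E2 (Lemma Grad). -/
theorem grad (hY : Refl Y) (K : Set Y) (hKc : IsClosed K) (hK : Convex ℝ K)
    (hdiam : ∀ x ∈ K, ∀ y ∈ K, ‖x - y‖ ≤ 1) (p : Y) (hp : p ∈ K) (x : ℕ → Y) (hx : ∀ k, x k ∈ K)
    (ε : ℕ → ℝ) (hε : ∀ k, 0 < ε k) (hdy : ∀ k, ∃ a s : ℕ, ε k = (a : ℝ) / 2 ^ s)
    (hsum : ∀ n, ∑ j ∈ Finset.range n, ε j ≤ 1) (z : Y → Y) (hz : MapsTo z K K) (hzne : ∀ a ∈ K, ∀ b ∈ K, ‖z a - z b‖ ≤ ‖a - b‖)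
    (hdense : (Submodule.span ℝ (Set.range (fun k => x k - p))).topologicalClosure = ⊤) :
    ∃ S : Y →L[ℝ] Y, ‖S‖ ≤ 1 ∧ ∀ k, S (x k - p) ∈ closure (convexHull ℝ (Quot z p x ε k)) :=
  Avg.grad hY K hK hdiam p hp x hx ε hε hsum z hzne hdense

end Crest.Agent.R108
end

-- ▼ part R108/LemH
section

/-! Row 108 (S0142): Lemma H (heredity).  helper261 -/

set_option autoImplicit false

open Filter Topology Set

namespace Crest.Agent.R108

universe u

variable {Y : Type u} [NormedAddCommGroup Y] [NormedSpace ℝ Y] [CompleteSpace Y]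

/-- E3 (Lemma H, heredity). -/
theorem lemH (hY : Refl Y) (D : Data Y) (g : ℕ → (Y →L[ℝ] ℝ)) (hg : Norming D g)
    (A : Y →L[ℝ] Y) (hA : InA D g A) (m : ℕ) (x₀ : Y) (hx₀ : x₀ ∈ D.K) (ε : ℝ) (hε : 0 < ε)
    (hε2 : ε < 1 / 2) :
    ∃ S : Y →L[ℝ] Y, InA D g (A.comp S) ∧
      ‖S (x₀ - D.p) - (D.R m x₀ - D.R m D.p)‖ ≤ 8 * ε :=
  lemH_of_grad (fun K hKc hK hdiam p hp x hx ε hε hdy hsum z hz hzne hdense =>
    grad hY K hKc hK hdiam p hp x hx ε hε hdy hsum z hz hzne hdense)
    D g hg A hA m x₀ hx₀ ε hε hε2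

end Crest.Agent.R108
end

-- ▼ part R108/Core
section

/-!
# R108 (S0142): the core contradiction (E4).
-/

set_option autoImplicit false

open Filter Topology Set

namespace Crest.Agent.R108

universe u

namespace Core

variable {Y : Type u} [NormedAddCommGroup Y] [NormedSpace ℝ Y] [CompleteSpace Y]

/-- the bush -/
def V (D : Data Y) (g : ℕ → (Y →L[ℝ] ℝ)) : Set Y :=
  {v | ∃ A : Y →L[ℝ] Y, InA D g A ∧ ∃ m : ℕ, ∃ s : ℝ, (s = 1 ∨ s = -1) ∧
    v = s • A (D.f m - D.p)}

omit [CompleteSpace Y] in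
theorem f_mem (D : Data Y) (n : ℕ) : D.f n ∈ D.K := D.mapsTo n D.hp

/-- one step of the bush -/
theorem step (hY : Refl Y) (D : Data Y) (g : ℕ → (Y →L[ℝ] ℝ)) (hg : Norming D g)
    (A : Y →L[ℝ] Y) (hA : InA D g A) (m : ℕ) (s : ℝ) (hs : s = 1 ∨ s = -1) (j : ℕ) :
    ∃ (n : ℕ) (u e : Y), j ≤ n ∧ u ∈ V D g ∧ (3 / 4 : ℝ) ≤ ‖A (D.f n - D.p)‖ ∧
      ‖e‖ ≤ (1 / 4 : ℝ) * (1 / ((j : ℝ) + 1)) ∧
      u = s • A (D.f m - D.p) - s • (A (D.f n - D.p) + e) := by
  have hj : (0 : ℝ) < 1 / ((j : ℝ) + 1) := Nat.one_div_pos_of_nat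
  have hj1 : 1 / ((j : ℝ) + 1) ≤ 1 := by
    rw [div_le_one (by positivity)]
    have : (0 : ℝ) ≤ j := Nat.cast_nonneg j
    linarith
  set t : ℝ := 1 / ((j : ℝ) + 1) with ht
  obtain ⟨η, hη, hη'⟩ := small_of_near D (D.p - D.qb) (1 / 8 : ℝ) (by norm_num)
  have hfix := D.fix m
  have hev : ∀ᶠ n in atTop, ‖D.R m (D.R n D.p) - D.R n D.p‖ < t / 8 :=
    hfix.eventually_lt_const (by positivity)
  obtain ⟨N, hN⟩ := eventually_atTop.1 hev
  obtain ⟨n, hn, hgn⟩ := hA.2 (min η (1 / 8)) (lt_min hη (by norm_num)) (max j N)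
  have hjn : j ≤ n := le_trans (le_max_left _ _) hn
  have hNn : N ≤ n := le_trans (le_max_right _ _) hn
  have hfn : D.f n ∈ D.K := f_mem D n
  -- the functional
  have hk : ‖(g n).comp A‖ ≤ 1 := by
    refine le_trans (ContinuousLinearMap.opNorm_comp_le _ _) ?_
    have h1 := (hg n).1
    have h2 := hA.1
    calc ‖g n‖ * ‖A‖ ≤ 1 * 1 := mul_le_mul h1 h2 (norm_nonneg _) zero_le_one
      _ = 1 := by norm_num
  have h1 : |((g n).comp A) (D.p - D.qb)| < 1 / 8 := by
    refine hη' _ hk (D.f n) hfn ?_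
    have : min η (1 / 8) ≤ η := min_le_left _ _
    simp only [ContinuousLinearMap.comp_apply]
    linarith
  have h2 : (3 / 4 : ℝ) ≤ ((g n).comp A) (D.f n - D.p) := by
    have h3 : ((g n).comp A) (D.f n - D.p) =
        g n (A (D.f n - D.qb)) - ((g n).comp A) (D.p - D.qb) := by
      simp only [ContinuousLinearMap.comp_apply, map_sub]
      ring
    have h4 := (abs_lt.1 h1).2
    have h5 : min η (1 / 8 : ℝ) ≤ 1 / 8 := min_le_right _ _
    rw [h3]
    linarith
  have h3 : (3 / 4 : ℝ) ≤ ‖A (D.f n - D.p)‖ := by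
    refine h2.trans ?_
    refine (le_abs_self _).trans ?_
    have h4 := (g n).le_opNorm (A (D.f n - D.p))
    rw [Real.norm_eq_abs] at h4
    refine h4.trans ?_
    have h5 := mul_le_mul_of_nonneg_right (hg n).1 (norm_nonneg (A (D.f n - D.p)))
    linarith
  obtain ⟨S, hS, hS'⟩ := lemH hY D g hg A hA m (D.f n) hfn (t / 64) (by positivity) (by linarith)
  refine ⟨n, (-s) • (A.comp S) (D.f n - D.p),
    A (S (D.f n - D.p) - (D.R m (D.f n) - D.R m D.p)) + A (D.R m (D.f n) - D.f n),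
    hjn, ⟨A.comp S, hS, n, -s, ?_, rfl⟩, h3, ?_, ?_⟩
  · rcases hs with rfl | rfl
    · right; rfl
    · left; norm_num
  · refine (norm_add_le _ _).trans ?_
    have h4 : ‖A (S (D.f n - D.p) - (D.R m (D.f n) - D.R m D.p))‖ ≤ 8 * (t / 64) := by
      refine (A.le_opNorm _).trans ?_
      have := mul_le_mul hA.1 hS' (norm_nonneg _) zero_le_one
      linarith
    have h5 : ‖A (D.R m (D.f n) - D.f n)‖ ≤ t / 8 := by
      refine (A.le_opNorm _).trans ?_
      have h6 : ‖D.R m (D.f n) - D.f n‖ ≤ t / 8 := (hN n hNn).le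
      have := mul_le_mul hA.1 h6 (norm_nonneg _) zero_le_one
      linarith
    linarith
  · have h6 : D.R m D.p = D.f m := rfl
    rw [h6]
    have h7 : A (D.f n - D.p) +
        (A (S (D.f n - D.p) - (D.R m (D.f n) - D.f m)) + A (D.R m (D.f n) - D.f n)) =
        A (S (D.f n - D.p)) + A (D.f m - D.p) := by
      simp only [map_sub]
      abel
    rw [h7, ContinuousLinearMap.comp_apply]
    module

end Core

section Core

variable {Y : Type u} [NormedAddCommGroup Y] [NormedSpace ℝ Y] [CompleteSpace Y]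

/-- E4 (core). -/
theorem core [TopologicalSpace.SeparableSpace Y] (hY : Refl Y) (D : Data Y) : False := by
  obtain ⟨g, hg⟩ := exists_norming D
  refine pcp hY (Core.V D g) ⟨_, ContinuousLinearMap.id ℝ Y, inA_id D g hg, 0, 1, Or.inl rfl, rfl⟩
    ?_ ?_
  · rw [isBounded_iff_forall_norm_le]
    refine ⟨1, ?_⟩
    rintro v ⟨A, hA, m, s, hs, rfl⟩
    rw [norm_smul]
    have h1 : ‖s‖ = 1 := by
      rcases hs with rfl | rfl <;> simp
    rw [h1, one_mul]
    refine (A.le_opNorm _).trans ?_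
    have h2 : ‖D.f m - D.p‖ ≤ 1 := D.diam_le _ (Core.f_mem D m) _ D.hp
    have := mul_le_mul hA.1 h2 (norm_nonneg _) zero_le_one
    linarith
  · rintro v ⟨A, hA, m, s, hs, rfl⟩
    choose n u e hjn hu hbig he hue using Core.step hY D g hg A hA m s hs
    have hs1 : ‖s‖ = 1 := by
      rcases hs with rfl | rfl <;> simp
    refine ⟨u, hu, ?_, ?_⟩
    · intro φ
      have hn : Tendsto n atTop atTop := tendsto_atTop_mono hjn tendsto_id
      have h1 : Tendsto (fun j => φ (A (D.f (n j) - D.p))) atTop (𝓝 0) := by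
        have h2 := (D.weak (φ.comp A)).comp hn
        have h3 : Tendsto (fun j => (φ.comp A) (D.R (n j) D.p) - (φ.comp A) D.p) atTop
            (𝓝 ((φ.comp A) D.p - (φ.comp A) D.p)) := h2.sub_const _
        rw [sub_self] at h3
        refine h3.congr (fun j => ?_)
        simp [Data.f, map_sub]
      have h2 : Tendsto e atTop (𝓝 0) := by
        rw [tendsto_zero_iff_norm_tendsto_zero]
        refine squeeze_zero (fun j => norm_nonneg _) he ?_
        have := (tendsto_one_div_add_atTop_nhds_zero_nat (𝕜 := ℝ)).const_mul (1 / 4 : ℝ)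
        simpa using this
      have h3 : Tendsto (fun j => φ (e j)) atTop (𝓝 0) := by
        have h5 := (φ.continuous.tendsto 0).comp h2
        rw [map_zero] at h5
        exact h5
      have h4 : Tendsto (fun j => φ (s • A (D.f m - D.p)) -
          s * (φ (A (D.f (n j) - D.p)) + φ (e j))) atTop
          (𝓝 (φ (s • A (D.f m - D.p)) - s * (0 + 0))) :=
        ((h1.add h3).const_mul s).const_sub _
      rw [add_zero, mul_zero, sub_zero] at h4
      refine h4.congr (fun j => ?_)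
      rw [hue j, φ.map_sub, φ.map_smul s (A (D.f (n j) - D.p) + e j), φ.map_add, smul_eq_mul]
    · intro j
      have h1 : u j - s • A (D.f m - D.p) = -(s • (A (D.f (n j) - D.p) + e j)) := by
        rw [hue j]; abel
      rw [h1, norm_neg, norm_smul, hs1, one_mul]
      have h2 : ‖A (D.f (n j) - D.p)‖ ≤ ‖A (D.f (n j) - D.p) + e j‖ + ‖e j‖ := by
        have := norm_sub_le (A (D.f (n j) - D.p) + e j) (e j)
        simpa using this
      have h3 : (1 / 4 : ℝ) * (1 / ((j : ℝ) + 1)) ≤ 1 / 4 := by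
        have hj1 : 1 / ((j : ℝ) + 1) ≤ 1 := by
          rw [div_le_one (by positivity)]
          have : (0 : ℝ) ≤ j := Nat.cast_nonneg j
          linarith
        linarith
      have h4 := hbig j
      have h5 := he j
      linarith

end Core

end Crest.Agent.R108
end

-- ▼ part R108/Main

set_option autoImplicit false

open Filter Topology Set

namespace Crest.Agent.R108

universe u

variable {X : Type u} [NormedAddCommGroup X] [NormedSpace ℝ X] [CompleteSpace X]

theorem main (hX : Refl X) (C : Set X) (hC₁ : C.Nonempty) (hC₂ : IsClosed C)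
    (hC₃ : Bornology.IsBounded C) (hC₄ : Convex ℝ C) (F : X → X) (hF₁ : Set.MapsTo F C C)
    (hF₂ : ∀ a ∈ C, ∀ b ∈ C, ‖F a - F b‖ ≤ ‖a - b‖) :
    ∃ x ∈ C, F x = x := by
  by_contra hcon
  have hcon' : ∀ x ∈ C, F x ≠ x := fun x hx h => hcon ⟨x, hx, h⟩
  obtain ⟨Y, hYc, hYs, ⟨M⟩⟩ := exists_minSys hX C hC₁ hC₂ hC₃ hC₄ F hF₁ hF₂ hcon'
  have := hYs
  have : CompleteSpace Y := hYc.completeSpace_coe
  have hY : Refl Y := refl_subspace hX Y hYc
  obtain ⟨D⟩ := exists_data hY M
  exact core hY D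

end Crest.Agent.R108
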